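import Vale.Agent.P260.H672.Fin
import Vale.Agent.P260.H20.BlockA

/-!
# P260, block A1: the statements consumed by the assembly of block [A]
-/

set_option linter.all false

namespace Vale.Agent.P260.H672

open Vale.Agent.P239 Vale.Agent.P239.M
open Vale.Agent.P216.Sl (CocL ExL)
open Vale.Agent.P260.A (Inv CocG ExG Cmp A1S FinS)

theorem cover_of {G X N : Type} [Group G] [MetricSpace X] [MetricSpace N] [CompactSpace N]
    [MulAction G X] {p : X → N} (hp : IsQuotientCoveringMap p G) : Cover G X N p where
  act := A.coAct_of_cover hp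
  cont := hp.continuous
  op := hp.isCoveringMap.isOpenMap
  surj := hp.surjective
  orb x y h := by
    obtain ⟨g, hg⟩ := hp.apply_eq_iff_mem_orbit.mp h.symm
    exact ⟨g, hg⟩
  inv g x := hp.apply_eq_iff_mem_orbit.mpr ⟨g, rfl⟩

/-- `asm` as a linear map. -/
def asmL (k : Type) [Field k] {G N : Type} (γ : N → N → G) : (List G → k) →ₗ[k] (List N → k) where
  toFun := asm γ
  map_add' f g := by
    funext l
    cases l <;> rfl
  map_smul' a f := by
    funext l
    cases l <;> rfl

theorem a1s : A1S := by
  intro k _ N X H _ _ _ _ _ _ r hr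
  have : LocallyCompactSpace X := locallyCompact_of_cover hr
  have hm : TopologicalSpace.MetrizableSpace X := A.metrizable_of_cover hr
  letI : MetricSpace X := TopologicalSpace.metrizableSpaceMetric X
  have hF : FillS k X := fillS k X
  have hact := A.coAct_of_cover hr
  obtain ⟨γ, ε₀, -, h1, -⟩ := exists_cmp_of (k := k) (cover_of hr) hF
    fun i => cfillS k hact hF i (psiS k hact hF i)
  exact ⟨asmL k γ, h1⟩

theorem finS : FinS := fun k _ H _ i hC => exG_of_small hC i

end Vale.Agent.P260.H672
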