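import Vale.Agent.P260.H672.Qc

/-!
# P260, block A1: the comparison
-/

set_option linter.all false

open Set (univ image mem_iUnion₂)

namespace Vale.Agent.P260.H672

open Vale.Agent.P239.M (Ch ext bd bdL pf cone Sup CFillS FillS SmG CoAct sup_bdL ext_congr Sup.mono
  ext_bdL htp)
open Vale.Agent.P216.Sl (dl ev CocL ExL)
open Vale.Agent.P216.PS (SmL)
open Vale.Agent.P260.A (Inv CocG ExG)

variable {k : Type} [Field k] {G X N : Type} [Group G] [MetricSpace X] [MetricSpace N]
  [MulAction G X] {p : X → N}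

/-! ### Conversions -/

theorem bdL_eq {α : Type} (l : List α) :
    (Vale.Agent.P216.Sl.bdL l : List α →₀ k) = bdL k l := by
  induction l with
  | nil => rfl
  | cons x l ih =>
    rw [Vale.Agent.P216.Sl.bdL_cons, ih, bdL]
    rfl

theorem dl_eq {α : Type} (f : List α → k) (l : List α) : dl f l = ext f (bdL k l) := by
  rw [← bdL_eq]
  rfl

theorem ext_pf {Y : Type} (f : X → Y) (u : List Y → k) (c : Ch k X) :
    ext u (pf f c) = ext (fun l => u (l.map f)) c := by
  have : (ext u).comp (pf f) = (ext (fun l => u (l.map f)) : Ch k X →ₗ[k] k) :=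
    lin_ext' fun l => by
      rw [LinearMap.comp_apply, Vale.Agent.P239.M.pf_single, Finsupp.linearCombination_single,
        Finsupp.linearCombination_single]
  exact DFunLike.congr_fun this c

theorem ext_zero' {α : Type} {P : List α → Prop} {u : List α → k} {c : Ch k α} (hc : Sup P c)
    (h : ∀ l, P l → u l = 0) : ext u c = 0 := by
  rw [ext_congr (v := fun _ => (0 : k)) hc h]
  simp [ext, Finsupp.linearCombination_apply]

/-! ### The transported cochains -/

theorem asm_eq {γ : N → N → G} {ε₀ : ℝ} (hg : Good γ ε₀) {f : List G → k} (hf : Inv f) (y : N)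
    {l : List N} (hl : SmL univ ε₀ l) (hy : ∀ z ∈ l, dist y z < ε₀) :
    asm γ f l = f (l.map (γ y)) := by
  cases l with
  | nil => rfl
  | cons z l =>
    rw [asm, ← hf (γ y z)]
    congr 1
    rw [List.map_map]
    refine List.map_congr_left fun w hw => ?_
    exact hg.mul y z w (hy z (by simp)) (hl.2 _ (by simp) _ hw) (hy w hw)

theorem dl_asm {γ : N → N → G} {ε₀ : ℝ} (hg : Good γ ε₀) {f : List G → k} (hf : Inv f) (y : N)
    {l : List N} (hl : SmL univ ε₀ l) (hy : ∀ z ∈ l, dist y z < ε₀) :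
    dl (asm γ f) l = dl f (l.map (γ y)) := by
  have h1 : dl (asm γ f) l = dl (fun l' => f (l'.map (γ y))) l :=
    Vale.Agent.P216.N929.dl_congr fun l' _ hl' =>
      asm_eq hg hf y ⟨fun _ _ => Set.mem_univ _, fun a ha b hb => hl.2 a (hl' a ha) b (hl' b hb)⟩
        fun z hz => hy z (hl' z hz)
  rw [h1, Vale.Agent.P216.N929.dl_map]

theorem asm_coc {γ : N → N → G} {ε₀ : ℝ} (hg : Good γ ε₀) {i : ℕ} {f : List G → k}
    (hf : CocG i f) : CocL (univ : Set N) i (asm γ f) := by
  refine ⟨ε₀, hg.pos, fun l hl hs => ?_⟩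
  obtain ⟨y, hy⟩ : ∃ y, y ∈ l := List.exists_mem_of_length_pos (by omega)
  rw [dl_asm hg hf.1 y hs fun z hz => hs.2 y hy z hz]
  exact hf.2 _ (by rw [List.length_map]; exact hl)

theorem asm_ex {γ : N → N → G} {ε₀ : ℝ} (hg : Good γ ε₀) {i : ℕ} {f : List G → k}
    (hf : ExG i f) : ExL (univ : Set N) i (asm γ f) := by
  obtain ⟨h, h0, hi, hh⟩ := hf
  refine ⟨asm γ h, fun hi0 l => ?_, ε₀, hg.pos, fun l hl hs => ?_⟩
  · cases l with
    | nil => exact h0 hi0 _
    | cons y l => exact h0 hi0 _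
  · obtain ⟨y, l, rfl⟩ : ∃ y l', l = y :: l' := by
      cases l with
      | nil => simp at hl
      | cons y l => exact ⟨y, l, rfl⟩
    rw [dl_asm hg hi y hs fun z hz => hs.2 y (by simp) z hz]
    exact hh _ (by rw [List.length_map]; exact hl)

theorem asm_cup {γ : N → N → G} {ε₀ : ℝ} (hg : Good γ ε₀) {i : ℕ} {f g : List G → k}
    (hf : Inv f) (hgi : Inv g) {l : List N} (hs : SmL univ ε₀ l) (hl : l ≠ []) :
    asm γ (Vale.Agent.P216.N929.cup i f g) l =
      Vale.Agent.P216.N929.cup i (asm γ f) (asm γ g) l := by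
  obtain ⟨y, hy⟩ := List.exists_mem_of_ne_nil l hl
  have hy' : ∀ z ∈ l, dist y z < ε₀ := fun z hz => hs.2 y hy z hz
  have hc : Inv (Vale.Agent.P216.N929.cup i f g) := by
    intro a l
    simp only [Vale.Agent.P216.N929.cup]
    rw [← List.map_take, ← List.map_drop, hf, hgi]
  rw [asm_eq hg hc y hs hy']
  simp only [Vale.Agent.P216.N929.cup]
  rw [← List.map_take, ← List.map_drop, asm_eq hg hf y
    ⟨fun _ _ => Set.mem_univ _, fun a ha b hb =>
      hs.2 a (List.mem_of_mem_take ha) b (List.mem_of_mem_take hb)⟩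
    (fun z hz => hy' z (List.mem_of_mem_take hz)), asm_eq hg hgi y
    ⟨fun _ _ => Set.mem_univ _, fun a ha b hb =>
      hs.2 a (List.mem_of_mem_drop ha) b (List.mem_of_mem_drop hb)⟩
    (fun z hz => hy' z (List.mem_of_mem_drop hz))]

/-! ### Small lists of `X` -/

theorem sz_fine (hc : Cover G X N p) {C : Set X} (hC : IsCompact C) {ε : ℝ} (hε : 0 < ε) :
    ∃ κ > 0, ∀ (g : G) (m : ℕ) (l : List X), Sz g C κ m l → SmL univ ε (l.map p) := by
  obtain ⟨κ, hκ, h⟩ := Metric.uniformContinuousOn_iff.1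
    (hC.uniformContinuousOn_of_continuous hc.cont.continuousOn) ε hε
  refine ⟨κ, hκ, fun g m l hl => ⟨fun _ _ => Set.mem_univ _, fun a ha b hb => ?_⟩⟩
  obtain ⟨x, hx, rfl⟩ := List.mem_map.1 ha
  obtain ⟨y, hy, rfl⟩ := List.mem_map.1 hb
  have h1 : g⁻¹ • x ∈ l.map fun x => g⁻¹ • x := List.mem_map.2 ⟨x, hx, rfl⟩
  have h2 : g⁻¹ • y ∈ l.map fun x => g⁻¹ • x := List.mem_map.2 ⟨y, hy, rfl⟩
  have h3 := h _ (hl.2.2 _ h1) _ (hl.2.2 _ h2) (hl.2.1 _ h1 _ h2)
  rwa [hc.inv, hc.inv] at h3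

theorem sz_asm (hc : Cover G X N p) {σ : N → X} {θ : X → G} {γ : N → N → G} {K : Set X}
    (hd : Dat p σ θ γ K) {C : Set X} (hC : IsCompact C) : ∃ κ > 0, ∀ (g : G) (m : ℕ) (l : List X),
      Sz g C κ m l → ∀ f : List G → k, Inv f → asm γ f (l.map p) = f (l.map θ) := by
  obtain ⟨κ, hκ, h⟩ := hd.loc C hC
  refine ⟨κ, hκ, fun g m l hl f hf => ?_⟩
  cases l with
  | nil => rfl
  | cons x l =>
    rw [List.map_cons, asm, ← List.map_cons (f := p), List.map_map, ← hf (θ x), List.map_map]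
    congr 1
    refine List.map_congr_left fun y hy => ?_
    have h1 : g⁻¹ • x ∈ (x :: l).map fun x => g⁻¹ • x := List.mem_map.2 ⟨x, by simp, rfl⟩
    have h2 : g⁻¹ • y ∈ (x :: l).map fun x => g⁻¹ • x := List.mem_map.2 ⟨y, hy, rfl⟩
    have h3 := h _ (hl.2.2 _ h1) _ (hl.2.2 _ h2) (hl.2.1 _ h1 _ h2)
    rw [hc.inv, hc.inv, hd.theq, hd.theq] at h3
    simp only [Function.comp_apply]
    rw [h3]
    group

theorem pf_tr (hc : Cover G X N p) (g : G) (c : Ch k X) : pf p (tr g c) = pf p c := by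
  have : (pf p).comp (tr g) = (pf p : Ch k X →ₗ[k] Ch k N) := lin_ext' fun l => by
    rw [LinearMap.comp_apply, tr_single, Vale.Agent.P239.M.pf_single,
      Vale.Agent.P239.M.pf_single, List.map_map]
    congr 1
    exact List.map_congr_left fun x _ => hc.inv g x
  exact DFunLike.congr_fun this c

theorem pf_theta_tr {θ : X → G} (hθ : ∀ (g : G) x, θ (g • x) = g * θ x) (g : G) (c : Ch k X) :
    pf θ (tr g c) = tr g (pf θ c) := by
  have : (pf θ).comp (tr g) = ((tr g).comp (pf θ) : Ch k X →ₗ[k] Ch k G) := lin_ext' fun l => by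
    rw [LinearMap.comp_apply, LinearMap.comp_apply, tr_single, Vale.Agent.P239.M.pf_single,
      Vale.Agent.P239.M.pf_single, tr_single, List.map_map, List.map_map]
    congr 1
    exact List.map_congr_left fun x _ => hθ g x
  exact DFunLike.congr_fun this c

theorem inv_ext {f : List G → k} (hf : Inv f) (g : G) (c : Ch k G) :
    ext f (tr g c) = ext f c := by
  rw [ext_tr]
  refine congrArg (fun u => ext u c) ?_
  funext l
  exact hf g l

/-- **Injectivity.** -/
theorem asm_inj (hc : Cover G X N p) (hF : FillS k X) (hC : ∀ i, CFillS k G i) {σ : N → X}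
    {θ : X → G} {γ : N → N → G} {K : Set X} (hd : Dat p σ θ γ K) {n : ℕ} {f : List G → k}
    (hf : CocG n f) (hex : ExL (univ : Set N) n (asm γ f)) : ExG n f := by
  obtain ⟨h, h0, ε, hε, hh⟩ := hex
  obtain ⟨C, hCc, HQ⟩ := exists_Q (k := k) hc.act.cont hF hC ∅ (n + 1)
  obtain ⟨κ₁, hκ₁, H1⟩ := sz_fine hc hCc hε
  obtain ⟨κ₂, hκ₂, H2⟩ := sz_asm (k := k) hc hd hCc
  obtain ⟨Q, hQ0, hQe, hQb, hQs, -⟩ := HQ (min κ₁ κ₂) (lt_min hκ₁ hκ₂)
  let Φ : List G → Ch k G := fun l => pf θ (Q l)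
  have hΦ0 : Φ [] = Finsupp.single [] 1 := by
    change pf θ (Q []) = _
    rw [hQ0, Vale.Agent.P239.M.pf_single, List.map_nil]
  have hΦb : ∀ l, l.length ≤ n + 1 → bd (Φ l) = ext Φ (bdL k l) := by
    intro l hl
    change bd (pf θ (Q l)) = _
    rw [Vale.Agent.P239.M.bd_pf, hQb l hl]
    exact Vale.Agent.P239.M.SupA.map_ext (pf θ) Q (bdL k l)
  have hΦs : ∀ l, l.length ≤ n + 1 → Sup (fun l' => l'.length = l.length) (Φ l) := by
    intro l hl
    refine Vale.Agent.P239.M.Sup.pf (R := fun l' : List G => l'.length = l.length) θ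
      (Sup.mono (fun l' hl' => ?_) (hQs l hl))
    obtain ⟨g, hg⟩ := hl'
    rw [List.length_map]
    exact hg.1
  have hΦe : ∀ (g : G) l, Φ (l.map fun x => g • x) = tr g (Φ l) := by
    intro g l
    change pf θ (Q _) = tr g (pf θ (Q l))
    rw [hQe, pf_theta_tr hd.theq]
  have key : ∀ l : List G, l.length = n + 1 →
      f l = dl (fun l' => ext f (htp hdG Φ l') + ext h (pf p (Q l'))) l := by
    intro l hl
    have h1 := coc_htp (f := f) (fun l hl => by rw [← dl_eq]; exact hf.2 l hl) hΦ0 hΦb hΦs hl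
    have h2 : ext f (Φ l) = ext (asm γ f) (pf p (Q l)) := by
      change ext f (pf θ (Q l)) = _
      rw [ext_pf, ext_pf]
      refine ext_congr (hQs l hl.le) fun l' hl' => ?_
      obtain ⟨g, hg⟩ := hl'
      exact (H2 g _ l' (hg.mono subset_rfl (min_le_right _ _)) f hf.1).symm
    have h3 : ext (asm γ f) (pf p (Q l)) = ext h (bd (pf p (Q l))) := by
      rw [ext_bdL, ext_pf, ext_pf]
      refine ext_congr (hQs l hl.le) fun l' hl' => ?_
      obtain ⟨g, hg⟩ := hl'
      rw [← dl_eq]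
      refine hh _ (by rw [List.length_map, hg.1, hl]) ?_
      exact H1 g _ l' (hg.mono subset_rfl (min_le_left _ _))
    have h4 : ext h (bd (pf p (Q l))) = ext (fun l' => ext h (pf p (Q l'))) (bdL k l) := by
      rw [Vale.Agent.P239.M.bd_pf, hQb l hl.le]
      exact Vale.Agent.P239.M.SupA.map_ext ((ext h).comp (pf p)) Q (bdL k l)
    rw [h1, h2, h3, h4, dl_eq, Vale.Agent.P239.M.SupA.ext_add]
  rcases Nat.eq_zero_or_pos n with hn | hn
  · subst hn
    refine ⟨fun _ => 0, fun _ _ => rfl, fun _ _ => rfl, fun l hl => ?_⟩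
    rw [key l hl]
    obtain ⟨x, rfl⟩ : ∃ x, l = [x] := List.length_eq_one_iff.1 (by simpa using hl)
    have hz : h = fun _ => 0 := funext (h0 rfl)
    rw [Vale.Agent.P216.N929.dl_cons, Vale.Agent.P216.N929.dl_nil, Vale.Agent.P216.N929.dl_cons,
      Vale.Agent.P216.N929.dl_nil, Vale.Agent.P239.M.htp_nil, hz]
    simp [ext, Finsupp.linearCombination_apply]
  · refine ⟨fun l' => ext f (htp hdG Φ l') + ext h (pf p (Q l')), fun h => absurd h hn.ne',
      fun g l => ?_, key⟩
    have e1 : htp hdG Φ (l.map fun x => g * x) = tr g (htp hdG Φ l) :=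
      htp_equiv hdG_smul hΦe g l
    have e2 : Q (l.map fun x => g * x) = tr g (Q l) := hQe g l
    simp only []
    rw [e1, e2, inv_ext hf.1, pf_tr hc]

/-- **Surjectivity**, with uniform scales. -/
theorem asm_surj (hc : Cover G X N p) (hF : FillS k X) (hC : ∀ i, CFillS k G i) {σ : N → X}
    {θ : X → G} {γ : N → N → G} {K : Set X} (hd : Dat p σ θ γ K) (n : ℕ) {ε : ℝ} (hε : 0 < ε) :
    ∃ δ > 0, ∀ u : List N → k, (∀ l, l.length = n + 2 → SmL univ ε l → dl u l = 0) →
      ∃ f : List G → k, CocG n f ∧ ∃ h : List N → k, (n = 0 → ∀ l, h l = 0) ∧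
        ∀ l, l.length = n + 1 → SmL univ δ l → u l - asm γ f l = dl h l := by
  classical
  obtain ⟨ε₀, hg⟩ := hd.good hc.inv
  -- finite sets of differences
  have hfin : {g : G | ∃ y ∈ K, g • y ∈ K}.Finite := hc.act.proper K K hd.Kc hd.Kc
  have hthK : ∀ x ∈ K, θ x ∈ {g : G | ∃ y ∈ K, g • y ∈ K} := fun x hx =>
    ⟨σ (p x), hd.sigK _, by rw [hd.thsig]; exact hx⟩
  set F : Finset G := hfin.toFinset with hFdef
  have hF' : ∀ x ∈ K, θ x ∈ F := fun x hx => hfin.mem_toFinset.2 (hthK x hx)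
  let T : Finset G := (F ×ˢ F).image fun q => q.1⁻¹ * q.2
  have hT : ∀ x ∈ K, ∀ y ∈ K, (θ x)⁻¹ * θ y ∈ T := fun x hx y hy =>
    Finset.mem_image.2 ⟨(θ x, θ y), Finset.mem_product.2 ⟨hF' x hx, hF' y hy⟩, rfl⟩
  obtain ⟨C, hCc, HQ⟩ := exists_Q (k := k) hc.act.cont hF hC T (n + 2)
  obtain ⟨K', hK'c, -, HK⟩ := Sz_change hc.act.cont (F.image fun g => g⁻¹) hd.Kc
  obtain ⟨CD, hCDc, -, HD⟩ := ext_fill (k := k) hc.act.cont hF θ hd.theq T (-1) 1 (n + 1)
    (hCc.union hK'c)
  obtain ⟨κ₁, hκ₁, H1⟩ := sz_fine hc hCc hε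
  obtain ⟨κ₂, hκ₂, H2⟩ := sz_fine hc hCDc hε
  obtain ⟨η, hη, -, HD⟩ := HD κ₂ hκ₂
  obtain ⟨κ₃, hκ₃, -, HK⟩ := HK η hη
  obtain ⟨Q, hQ0, hQe, hQb, hQs, hQs'⟩ := HQ (min κ₁ η) (lt_min hκ₁ hη)
  -- the homotopy
  let Adm : List X → Prop := fun l => l.length ≤ n + 2 ∧ ∃ g : G, Sz g K κ₃ l.length l
  have hsub : ∀ l l' : List X, l'.Sublist l → Adm l → Adm l' := by
    rintro l l' hs ⟨h1, g, h2⟩
    refine ⟨hs.length_le.trans h1, g, rfl, fun x hx y hy => ?_, fun x hx => ?_⟩
    · exact h2.2.1 x ((hs.map _).subset hx) y ((hs.map _).subset hy)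
    · exact h2.2.2 x ((hs.map _).subset hx)
  have hinv : ∀ (g : G) (l : List X), Adm l → Adm (l.map fun x => g • x) := by
    rintro g l ⟨h1, g', h2⟩
    refine ⟨by rwa [List.length_map], g * g', ?_⟩
    rw [List.length_map]
    exact h2.tr
  have hTa : ∀ l, Adm l → ∀ x ∈ l, ∀ y ∈ l, (θ x)⁻¹ * θ y ∈ T := by
    rintro l ⟨-, g, h⟩ x hx y hy
    have h1 := hT _ (h.2.2 _ (List.mem_map.2 ⟨x, hx, rfl⟩)) _
      (h.2.2 _ (List.mem_map.2 ⟨y, hy, rfl⟩))
    rw [hd.theq, hd.theq] at h1
    have e : (g⁻¹ * θ x)⁻¹ * (g⁻¹ * θ y) = (θ x)⁻¹ * θ y := by group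
    rwa [e] at h1
  have hmt : ∀ (g : G) (l : List X), (l.map fun x => g • x).map θ = (l.map θ).map fun x => g • x := by
    intro g l
    rw [List.map_map, List.map_map]
    exact List.map_congr_left fun x _ => hd.theq g x
  let Φ : List X → Ch k X := fun l => Finsupp.single l 1 - Q (l.map θ)
  have hΦe : ∀ (g : G) (l : List X), Φ (l.map fun x => g • x) = tr g (Φ l) := by
    intro g l
    change Finsupp.single _ 1 - Q _ = tr g (Finsupp.single l 1 - Q (l.map θ))
    rw [hmt, hQe, map_sub, tr_single]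
  have hΦb : ∀ l, Adm l → bd (Φ l) = -((-1 : k) • ext Φ (bdL k l)) := by
    intro l hl
    have h1 : ext Φ (bdL k l) = bdL k l - ext Q (bdL k (l.map θ)) := by
      have e1 : ext Φ (bdL k l) = ext (fun l' => Finsupp.single l' (1 : k)) (bdL k l) -
          ext (fun l' => Q (l'.map θ)) (bdL k l) := Vale.Agent.P239.M.SupA.ext_sub _ _ _
      have e2 : ext (fun l' => Q (l'.map θ)) (bdL k l) = ext Q (pf θ (bdL k l)) := by
        have : (ext Q).comp (pf θ) = (ext (fun l' => Q (l'.map θ)) : Ch k X →ₗ[k] Ch k X) :=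
          lin_ext' fun l => by
            rw [LinearMap.comp_apply, Vale.Agent.P239.M.pf_single,
              Finsupp.linearCombination_single, Finsupp.linearCombination_single]
        exact (DFunLike.congr_fun this _).symm
      rw [e1, Vale.Agent.P239.M.SupA.ext_self, e2, Vale.Agent.P239.M.pf_bdL]
    rw [neg_smul, one_smul, neg_neg, h1]
    change bd (Finsupp.single l 1 - Q (l.map θ)) = _
    rw [map_sub, Vale.Agent.P239.M.bd_single, one_smul, hQb _ (by rw [List.length_map]; exact hl.1)]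
  have hΦs : ∀ x l, Adm (x :: l) → l.length < n + 1 →
      Sup (Sz (θ x) (C ∪ K') η (l.length + 1)) (Φ (x :: l)) := by
    intro x l hl hlN
    obtain ⟨-, g, hg⟩ := id hl
    refine Vale.Agent.P239.M.Sup.sub (Vale.Agent.P239.M.Sup.single _ ?_) ?_
    · have h1 : (θ x)⁻¹ * g ∈ F.image fun g => g⁻¹ := by
        refine Finset.mem_image.2 ⟨θ (g⁻¹ • x),
          hF' _ (hg.2.2 _ (List.mem_map.2 ⟨x, by simp, rfl⟩)), ?_⟩
        rw [hd.theq]
        group
      exact (HK _ _ h1 _ _ hg).mono Set.subset_union_right le_rfl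
    · have h1 : SmG T ((x :: l).map θ) := by
        intro a ha b hb
        obtain ⟨a', ha', rfl⟩ := List.mem_map.1 ha
        obtain ⟨b', hb', rfl⟩ := List.mem_map.1 hb
        exact hTa _ hl a' ha' b' hb'
      have h2 := hQs' (θ x) (l.map θ) h1 (by rw [List.length_map]; omega)
      rw [List.length_map] at h2
      exact Sup.mono (fun l' hl' => hl'.mono Set.subset_union_left (min_le_right _ _)) h2
  have hΦ0 : Φ [] = 0 := by
    change Finsupp.single [] 1 - Q _ = 0
    rw [List.map_nil, hQ0, sub_self]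
  obtain ⟨D, hD0, hDe, hDb, hDs⟩ := HD Adm hsub hinv hTa Φ hΦe hΦb hΦs hΦ0 0 (Or.inl rfl)
  rw [Finsupp.single_zero] at hD0
  obtain ⟨δ, hδ, Hδ⟩ := hd.lift (κ₃ / 2) (by positivity)
  refine ⟨min δ ε₀, lt_min hδ hg.pos, fun u hu => ?_⟩
  let φ : Ch k X →ₗ[k] k := (ext u).comp (pf p)
  have hφtr : ∀ (g : G) c, φ (tr g c) = φ c := fun g c => by
    change ext u (pf p (tr g c)) = ext u (pf p c)
    rw [pf_tr hc]
  have hφbd : ∀ (m : G) (C' : Set X) (κ : ℝ), (∀ l, (∃ g : G, Sz g C' κ (n + 2) l) →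
      SmL univ ε (l.map p)) → ∀ c : Ch k X, Sup (fun l => ∃ g : G, Sz g C' κ (n + 2) l) c →
      φ (bd c) = 0 := by
    intro _ C' κ h c hc'
    change ext u (pf p (bd c)) = 0
    rw [← Vale.Agent.P239.M.bd_pf, ext_bdL, ext_pf]
    refine ext_zero' hc' fun l hl => ?_
    rw [← dl_eq]
    refine hu _ ?_ (h l hl)
    obtain ⟨g, hg⟩ := hl
    rw [List.length_map, hg.1]
  refine ⟨fun l => φ (Q l), ⟨fun g l => ?_, fun l hl => ?_⟩, ?_⟩
  · have e2 : Q (l.map fun x => g * x) = tr g (Q l) := hQe g l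
    simp only []
    rw [e2, hφtr]
  · rw [dl_eq]
    have e1 : ext (fun l => φ (Q l)) (bdL k l) = φ (ext Q (bdL k l)) :=
      (Vale.Agent.P239.M.SupA.map_ext φ Q (bdL k l)).symm
    rw [e1, ← hQb l hl.le]
    refine hφbd 1 C (min κ₁ η) (fun l' hl' => ?_) _ ?_
    · obtain ⟨g, hg⟩ := hl'
      exact H1 g _ l' (hg.mono subset_rfl (min_le_left _ _))
    · have := hQs l hl.le
      rwa [hl] at this
  -- the primitive
  let lf : List N → List X := fun l => match l with
    | [] => []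
    | y :: l => (y :: l).map fun z => γ y z • σ z
  have main : ∀ l : List N, l.length = n + 1 → SmL univ (min δ ε₀) l →
      u l - asm γ (fun l => φ (Q l)) l = dl (fun l => φ (D (lf l))) l := by
    intro l hl hs
    obtain ⟨y, l₁, rfl⟩ : ∃ y l₁, l = y :: l₁ := by
      cases l with
      | nil => simp at hl
      | cons y l₁ => exact ⟨y, l₁, rfl⟩
    set L : List X := (y :: l₁).map fun z => γ y z • σ z with hL
    have hyz : ∀ z ∈ y :: l₁, dist y z < min δ ε₀ := fun z hz => hs.2 y (by simp) z hz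
    have hA : Adm L := by
      refine ⟨by rw [hL, List.length_map, hl]; omega, 1, Sz_one.2 ⟨rfl, ?_, ?_⟩⟩
      · intro a ha b hb
        obtain ⟨z, hz, rfl⟩ := List.mem_map.1 ha
        obtain ⟨w, hw, rfl⟩ := List.mem_map.1 hb
        have a1 := (Hδ y z ((hyz z hz).trans_le (min_le_left _ _))).1
        have a2 := (Hδ y w ((hyz w hw).trans_le (min_le_left _ _))).1
        have := dist_triangle_left (γ y z • σ z) (γ y w • σ w) (σ y)
        linarith
      · intro a ha
        obtain ⟨z, hz, rfl⟩ := List.mem_map.1 ha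
        exact (Hδ y z ((hyz z hz).trans_le (min_le_left _ _))).2
    have hLp : L.map p = y :: l₁ := by
      rw [hL, List.map_map]
      refine (List.map_congr_left fun z _ => ?_).trans (List.map_id _)
      simp only [Function.comp_apply]
      rw [hc.inv, hd.psig]
      rfl
    have hLθ : L.map θ = (y :: l₁).map (γ y) := by
      rw [hL, List.map_map]
      refine List.map_congr_left fun z _ => ?_
      simp only [Function.comp_apply]
      rw [hd.theq, hd.thone, mul_one]
    have hLlen : L.length = n + 1 := by rw [hL, List.length_map, hl]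
    have h1 := congrArg φ (hDb L hA hLlen.le)
    have h2 : φ (bd (D L)) = 0 := by
      refine hφbd 1 CD κ₂ (fun l' hl' => ?_) _ ?_
      · obtain ⟨g, hg⟩ := hl'
        exact H2 g _ l' hg
      · have h3 := hDs (γ y y • σ y) (l₁.map fun z => γ y z • σ z) hA
          (by rw [List.length_map]; simp at hl; omega)
        rw [List.length_map] at h3
        have h4 : l₁.length + 1 + 1 = n + 2 := by simp at hl; omega
        rw [h4] at h3
        exact Sup.mono (fun l' hl' => ⟨_, hl'⟩) h3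
    have h3 : φ (Finsupp.single L 1) = u (y :: l₁) := by
      change ext u (pf p (Finsupp.single L 1)) = _
      rw [Vale.Agent.P239.M.pf_single, Finsupp.linearCombination_single, one_smul, hLp]
    have h4 : dl (fun l => φ (D (lf l))) (y :: l₁) = φ (ext D (bdL k L)) := by
      rw [dl_eq]
      have e1 : bdL k (y :: l₁) = pf p (bdL k L) := by rw [Vale.Agent.P239.M.pf_bdL, hLp]
      have e2 : φ (ext D (bdL k L)) = ext (fun L' => φ (D L')) (bdL k L) :=
        Vale.Agent.P239.M.SupA.map_ext φ D (bdL k L)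
      rw [e1, ext_pf, e2]
      refine ext_congr (sup_bdL L) fun L' hL' => ?_
      obtain ⟨l', hl', rfl⟩ := List.sublist_map_iff.1 (hL ▸ hL'.1)
      have e3 : (l'.map fun z => γ y z • σ z).map p = l' := by
        rw [List.map_map]
        refine (List.map_congr_left fun z _ => ?_).trans (List.map_id _)
        simp only [Function.comp_apply]
        rw [hc.inv, hd.psig]
        rfl
      rw [e3]
      cases l' with
      | nil => rfl
      | cons z l₂ =>
        have e4 : ((z :: l₂).map fun w => γ y w • σ w) =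
            (lf (z :: l₂)).map fun x => γ y z • x := by
          change _ = ((z :: l₂).map fun w => γ z w • σ w).map _
          rw [List.map_map]
          refine List.map_congr_left fun w hw => ?_
          simp only [Function.comp_apply]
          rw [← mul_smul]
          congr 1
          have hzm : z ∈ y :: l₁ := hl'.subset (by simp)
          have hwm : w ∈ y :: l₁ := hl'.subset hw
          exact (hg.mul y z w ((hyz z hzm).trans_le (min_le_right _ _))
            ((hs.2 z hzm w hwm).trans_le (min_le_right _ _))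
            ((hyz w hwm).trans_le (min_le_right _ _))).symm
        rw [e4, hDe, hφtr]
    have h5 : asm γ (fun l => φ (Q l)) (y :: l₁) = φ (Q (L.map θ)) := by
      rw [hLθ]; rfl
    rw [h2, map_add, map_smul] at h1
    change 0 = φ (Finsupp.single L 1 - Q (L.map θ)) + (-1 : k) • φ (ext D (bdL k L)) at h1
    rw [map_sub, h3, ← h5, ← h4, neg_smul, one_smul, ← sub_eq_add_neg] at h1
    exact sub_eq_zero.1 h1.symm
  refine ⟨fun l => if n = 0 then 0 else φ (D (lf l)), fun h0 l => if_pos h0, fun l hl hs => ?_⟩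
  rw [main l hl hs]
  by_cases hn : n = 0
  · subst hn
    obtain ⟨x, rfl⟩ : ∃ x, l = [x] := List.length_eq_one_iff.1 (by simpa using hl)
    have e0 : φ (D (lf [])) = 0 := by
      change φ (D []) = 0
      rw [hD0, map_zero]
    rw [Vale.Agent.P216.N929.dl_cons, Vale.Agent.P216.N929.dl_nil, Vale.Agent.P216.N929.dl_cons,
      Vale.Agent.P216.N929.dl_nil, e0]
    simp
  · simp only [if_neg hn]

end Vale.Agent.P260.H672
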