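import Vale.Agent.P260.H20.Defs

/-!
# P260, block A1: comparison of group cohomology with the Alexander-Spanier cohomology of `X / G`

Definitions.
-/

set_option linter.all false

namespace Vale.Agent.P260.H672

open Vale.Agent.P239.M (CoAct FillS)

/-- The cochain on `N` defined by an invariant cochain on `G` and a family of transports `γ`. -/
def asm {k G N : Type} (γ : N → N → G) (f : List G → k) : List N → k
  | [] => f []
  | y :: l => f ((y :: l).map (γ y))

/-- `p : X → N` is the quotient map of a free proper cocompact action of `G`. -/
structure Cover (G X N : Type) [Group G] [MetricSpace X] [MetricSpace N] [MulAction G X]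
    (p : X → N) : Prop where
  act : CoAct G X
  cont : Continuous p
  op : IsOpenMap p
  surj : Function.Surjective p
  orb : ∀ x y, p x = p y → ∃ g : G, g • x = y
  inv : ∀ (g : G) x, p (g • x) = p x

/-- The transports are multiplicative on fine triples. -/
structure Good {G N : Type} [Group G] [MetricSpace N] (γ : N → N → G) (ε₀ : ℝ) : Prop where
  pos : 0 < ε₀
  mul : ∀ x y z, dist x y < ε₀ → dist y z < ε₀ → dist x z < ε₀ → γ x y * γ y z = γ x z

end Vale.Agent.P260.H672
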