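import Vale.Agent.P260.H672.Defs

/-!
# P260, block A1: equivariant filling
-/

set_option linter.all false

open Set (univ image mem_iUnion₂)

namespace Vale.Agent.P260.H672

open Vale.Agent.P239.M

section

variable {k : Type*} [CommRing k] {G : Type*} [Group G] {V X : Type*} [MulAction G V]
  [MulAction G X]

/-- translation of chains -/
noncomputable def tr (g : G) : Ch k X →ₗ[k] Ch k X := pf fun x => g • x

theorem tr_single (g : G) (l : List X) (r : k) :
    tr g (Finsupp.single l r) = Finsupp.single (l.map fun x => g • x) r := pf_single _ _ _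

theorem bd_tr (g : G) (c : Ch k X) : bd (tr g c) = tr g (bd c) := bd_pf _ _

theorem map_map_smul (g h : G) (l : List V) :
    (l.map fun x => g • x).map (fun x => h • x) = l.map fun x => (h * g) • x := by
  rw [List.map_map]
  exact List.map_congr_left fun x _ => by simp [mul_smul]

theorem map_one_smul (l : List V) : (l.map fun x => (1 : G) • x) = l := by simp

theorem lin_ext' {M : Type*} [AddCommGroup M] [Module k M] {f g : Ch k X →ₗ[k] M}
    (h : ∀ l, f (Finsupp.single l 1) = g (Finsupp.single l 1)) : f = g :=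
  Finsupp.lhom_ext' fun l => LinearMap.ext_ring (h l)

theorem tr_tr (g h : G) (c : Ch k X) : tr h (tr g c) = tr (h * g) c := by
  have : (tr h).comp (tr g) = (tr (h * g) : Ch k X →ₗ[k] Ch k X) := lin_ext' fun l => by
    rw [LinearMap.comp_apply, tr_single, tr_single, tr_single, map_map_smul]
  exact DFunLike.congr_fun this c

theorem tr_one (c : Ch k X) : tr (1 : G) c = c := by
  have : tr (1 : G) = (LinearMap.id : Ch k X →ₗ[k] Ch k X) := lin_ext' fun l => by
    rw [tr_single, map_one_smul, LinearMap.id_apply]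
  exact DFunLike.congr_fun this c

theorem tr_bdL (g : G) (l : List X) : tr g (bdL k l) = bdL k (l.map fun x => g • x) := pf_bdL _ _

theorem ext_tr {M : Type*} [AddCommGroup M] [Module k M] (u : List X → M) (g : G) (c : Ch k X) :
    ext u (tr g c) = ext (fun l => u (l.map fun x => g • x)) c := by
  have : (ext u).comp (tr g) = (ext (fun l => u (l.map fun x => g • x)) : Ch k X →ₗ[k] M) :=
    lin_ext' fun l => by
      rw [LinearMap.comp_apply, tr_single, Finsupp.linearCombination_single,
        Finsupp.linearCombination_single]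
  exact DFunLike.congr_fun this c

theorem tr_ext (g : G) (u : List V → Ch k X) (c : Ch k V) :
    tr g (ext u c) = ext (fun l => tr g (u l)) c := SupA.map_ext _ _ _

theorem sup_smul' {P : List X → Prop} {c : Ch k X} (r : k) (hc : Sup P c) : Sup P (r • c) := by
  intro l hl
  refine hc l (Finsupp.mem_support_iff.2 fun h => ?_)
  rw [Finsupp.mem_support_iff, Finsupp.smul_apply, h, smul_zero] at hl
  exact hl rfl

theorem sup_tr {P Q : List X → Prop} {g : G} {c : Ch k X} (hc : Sup P c)
    (h : ∀ l, P l → Q (l.map fun x => g • x)) : Sup Q (tr g c) :=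
  Sup.pf _ (Sup.mono h hc)

end

section

variable {k : Type*} [CommRing k] {G : Type*} [Group G] {V X : Type*} [MulAction G V]
  [MetricSpace X] [MulAction G X]

/-- Smallness of a list seen from `g`. -/
def Sz (g : G) (C : Set X) (ε : ℝ) (m : ℕ) (l : List X) : Prop :=
  l.length = m ∧ Sm ε (l.map fun x => g⁻¹ • x) ∧ In C (l.map fun x => g⁻¹ • x)

theorem Sz.mono {g : G} {C C' : Set X} {ε ε' : ℝ} {m : ℕ} {l : List X} (h : Sz g C ε m l)
    (hC : C ⊆ C') (hε : ε ≤ ε') : Sz g C' ε' m l :=
  ⟨h.1, fun x hx y hy => (h.2.1 x hx y hy).trans_le hε, fun x hx => hC (h.2.2 x hx)⟩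

theorem Sz.tr {g h : G} {C : Set X} {ε : ℝ} {m : ℕ} {l : List X} (hl : Sz g C ε m l) :
    Sz (h * g) C ε m (l.map fun x => h • x) := by
  have e : (l.map fun x => h • x).map (fun x => (h * g)⁻¹ • x) = l.map fun x => g⁻¹ • x := by
    rw [map_map_smul]
    congr 1
    funext x
    congr 1
    group
  refine ⟨by rw [List.length_map]; exact hl.1, ?_, ?_⟩
  · rw [e]; exact hl.2.1
  · rw [e]; exact hl.2.2

theorem Sz_one {C : Set X} {ε : ℝ} {m : ℕ} {l : List X} :
    Sz (1 : G) C ε m l ↔ l.length = m ∧ Sm ε l ∧ In C l := by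
  have e : (l.map fun x => (1 : G)⁻¹ • x) = l := by simp
  rw [Sz, e]

/-- Change of the base point. -/
theorem Sz_change (hcont : ∀ g : G, Continuous fun x : X => g • x) (T : Finset G) {C : Set X}
    (hC : IsCompact C) : ∃ C' : Set X, IsCompact C' ∧ (∀ t ∈ T, ∀ x ∈ C, t • x ∈ C') ∧
      ∀ ε > 0, ∃ η > 0, η ≤ ε ∧ ∀ g g' : G, g⁻¹ * g' ∈ T → ∀ (m : ℕ) (l : List X),
        Sz g' C η m l → Sz g C' ε m l := by
  classical
  refine ⟨⋃ t ∈ T, (fun x => t • x) '' C,
    T.isCompact_biUnion fun t _ => hC.image (hcont t), fun t ht x hx =>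
      mem_iUnion₂.2 ⟨t, ht, x, hx, rfl⟩, fun ε hε => ?_⟩
  have h1 : ∀ t ∈ T, ∃ η > 0, ∀ x ∈ C, ∀ y ∈ C, dist x y < η → dist (t • x) (t • y) < ε := by
    intro t _
    have := Metric.uniformContinuousOn_iff.1
      (hC.uniformContinuousOn_of_continuous (hcont t).continuousOn) ε hε
    exact this
  have h2 : ∃ η > 0, ∀ t ∈ T, ∀ x ∈ C, ∀ y ∈ C, dist x y < η → dist (t • x) (t • y) < ε := by
    clear * - h1
    induction T using Finset.induction_on with
    | empty => exact ⟨1, one_pos, by simp⟩
    | insert a s ha ih =>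
      obtain ⟨η, hη, h⟩ := ih fun t ht => h1 t (Finset.mem_insert_of_mem ht)
      obtain ⟨η', hη', h'⟩ := h1 a (Finset.mem_insert_self _ _)
      refine ⟨min η η', lt_min hη hη', fun t ht x hx y hy hxy => ?_⟩
      rcases Finset.mem_insert.1 ht with rfl | ht
      · exact h' x hx y hy (hxy.trans_le (min_le_right _ _))
      · exact h t ht x hx y hy (hxy.trans_le (min_le_left _ _))
  obtain ⟨η, hη, h⟩ := h2
  refine ⟨min η ε, lt_min hη hε, min_le_right _ _, fun g g' hg m l hl => ?_⟩
  have e : (l.map fun x => g⁻¹ • x) = (l.map fun x => g'⁻¹ • x).map fun x => (g⁻¹ * g') • x := by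
    rw [map_map_smul]
    congr 1
    funext x
    congr 1
    group
  refine ⟨hl.1, ?_, ?_⟩
  · rw [e]
    intro x hx y hy
    obtain ⟨x', hx', rfl⟩ := List.mem_map.1 hx
    obtain ⟨y', hy', rfl⟩ := List.mem_map.1 hy
    exact h _ hg x' (hl.2.2 x' hx') y' (hl.2.2 y' hy')
      ((hl.2.1 x' hx' y' hy').trans_le (min_le_left _ _))
  · rw [e]
    intro x hx
    obtain ⟨x', hx', rfl⟩ := List.mem_map.1 hx
    exact mem_iUnion₂.2 ⟨_, hg, x', hl.2.2 x' hx', rfl⟩

/-- **Equivariant filling.** -/
theorem ext_fill (hcont : ∀ g : G, Continuous fun x : X => g • x) (hF : FillS k X) (θ : V → G)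
    (hθ : ∀ (g : G) v, θ (g • v) = g * θ v) (T : Finset G) (a : k) (e : ℕ) (N : ℕ) {CΦ : Set X}
    (hCΦ : IsCompact CΦ) : ∃ C : Set X, IsCompact C ∧ CΦ ⊆ C ∧ ∀ ε > 0, ∃ η > 0, η ≤ ε ∧
      ∀ (Adm : List V → Prop), (∀ l l', l'.Sublist l → Adm l → Adm l') →
      (∀ (g : G) l, Adm l → Adm (l.map fun x => g • x)) →
      (∀ l, Adm l → ∀ x ∈ l, ∀ y ∈ l, (θ x)⁻¹ * θ y ∈ T) →
      ∀ (Φ : List V → Ch k X),
      (∀ (g : G) l, Φ (l.map fun x => g • x) = tr g (Φ l)) →
      (∀ l, Adm l → bd (Φ l) = -(a • ext Φ (bdL k l))) →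
      (∀ x l, Adm (x :: l) → l.length < N → Sup (Sz (θ x) CΦ η (l.length + e)) (Φ (x :: l))) →
      Φ [] = 0 → ∀ d₀ : k, d₀ = 0 ∨ e = 0 →
      ∃ D : List V → Ch k X, D [] = Finsupp.single [] d₀ ∧
        (∀ (g : G) l, D (l.map fun x => g • x) = tr g (D l)) ∧
        (∀ l, Adm l → l.length ≤ N → bd (D l) = Φ l + a • ext D (bdL k l)) ∧
        ∀ x l, Adm (x :: l) → l.length < N → Sup (Sz (θ x) C ε (l.length + 1 + e)) (D (x :: l)) := by
  classical
  induction N with
  | zero =>
    refine ⟨CΦ, hCΦ, subset_rfl, fun ε hε => ⟨ε, hε, le_rfl, ?_⟩⟩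
    intro Adm _ _ _ Φ _ _ _ hΦ0 d₀ _
    refine ⟨fun l => if l = [] then Finsupp.single [] d₀ else 0, by simp, fun g l => ?_, ?_, ?_⟩
    · by_cases hl : l = []
      · subst hl; simp [tr_single]
      · simp [hl]
    · intro l _ hl
      have : l = [] := List.length_eq_zero_iff.1 (Nat.le_zero.1 hl)
      subst this
      simp [bd_single, bdL, hΦ0]
    · intro x l _ hl
      exact absurd hl (Nat.not_lt_zero _)
  | succ N ih =>
    obtain ⟨C₀, hC₀, hCC₀, IH⟩ := ih
    obtain ⟨A, hA, hTA, HA⟩ := Sz_change hcont (insert 1 T) hC₀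
    obtain ⟨A', hA', hAA', HF⟩ := hF A hA
    have hC₀A : C₀ ⊆ A := fun x hx => by
      have := hTA 1 (Finset.mem_insert_self _ _) x hx
      rwa [one_smul] at this
    refine ⟨A', hA', (hCC₀.trans hC₀A).trans hAA', fun ε hε => ?_⟩
    obtain ⟨κ, hκ, HF⟩ := HF ε hε
    obtain ⟨η₁, hη₁, hη₁κ, H1⟩ := HA κ hκ
    obtain ⟨η₂, hη₂, hη₂', H2⟩ := IH (min η₁ ε) (lt_min hη₁ hε)
    refine ⟨η₂, hη₂, hη₂'.trans (min_le_right _ _), ?_⟩
    intro Adm hsub hinv hT Φ hΦe hΦb hΦs hΦ0 d₀ hd₀
    obtain ⟨D₀, hD0, hDe, hDb, hDs⟩ := H2 Adm hsub hinv hT Φ hΦe hΦb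
      (fun x l hl hlN => hΦs x l hl (Nat.lt_succ_of_lt hlN)) hΦ0 d₀ hd₀
    -- the cycle to be filled
    let z : List V → Ch k X := fun l => Φ l + a • ext D₀ (bdL k l)
    have hze : ∀ (g : G) l, z (l.map fun x => g • x) = tr g (z l) := by
      intro g l
      change Φ _ + a • ext D₀ (bdL k _) = _
      rw [hΦe, map_add, map_smul, ← tr_bdL, ext_tr, tr_ext]
      congr 2
      refine congrArg (fun u => ext u (bdL k l)) ?_
      funext l'
      exact hDe g l'
    have hzb : ∀ l, Adm l → l.length = N + 1 → bd (z l) = 0 := by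
      intro l hl hlN
      change bd (Φ l + a • ext D₀ (bdL k l)) = 0
      have h1 : ext (fun l' => bd (D₀ l')) (bdL k l) =
          ext (fun l' => Φ l' + a • ext D₀ (bdL k l')) (bdL k l) := by
        refine ext_congr (sup_bdL l) fun l' hl' => ?_
        exact hDb l' (hsub l l' hl'.1 hl) (by have := hl'.2; omega)
      have h2 : ext (fun l' => a • ext D₀ (bdL k l')) (bdL k l) = 0 := by
        have h3 : ext (fun l' => a • ext D₀ (bdL k l')) (bdL k l) =
            a • ext D₀ (bd (bdL k l)) := by
          rw [ext_bdL]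
          simp only [ext, Finsupp.linearCombination_apply, Finsupp.sum, Finset.smul_sum]
          exact Finset.sum_congr rfl fun l' _ => Finset.sum_congr rfl fun _ _ => smul_comm _ _ _
        rw [h3, bd_bdL, map_zero, smul_zero]
      rw [map_add, map_smul, SupA.map_ext, h1, SupA.ext_add, h2, add_zero, hΦb l hl,
        neg_add_cancel]
    have hzs : ∀ l, Adm l → l.length = N + 1 → (∀ x ∈ l.head?, θ x = 1) →
        Sup (fun l' => l'.length = N + e ∧ Sm κ l' ∧ In A l') (z l) := by
      intro l hl hlN hhd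
      obtain ⟨x, l₁, rfl⟩ : ∃ x l₁, l = x :: l₁ := by
        cases l with
        | nil => simp at hlN
        | cons x l₁ => exact ⟨x, l₁, rfl⟩
      have hx : θ x = 1 := hhd x (by simp)
      have hl₁ : l₁.length = N := by simpa using hlN
      refine Sup.add ?_ ?_
      · have h1 := hΦs x l₁ hl (by omega)
        refine Sup.mono (fun l' hl' => ?_) h1
        rw [hx] at hl'
        have h2 := Sz_one.1 (H1 1 1 (by simp) _ _ (hl'.mono hCC₀
          (hη₂'.trans (min_le_left _ _))))
        rwa [hl₁] at h2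
      · refine sup_smul' a (Sup.ext (sup_bdL (x :: l₁)) fun l' hl' => ?_)
        have hl'N : l'.length = N := by have := hl'.2; simp at this; omega
        cases l' with
        | nil =>
          have hN : N = 0 := by simpa using hl'N.symm
          rw [hD0]
          rcases hd₀ with h0 | h0
          · rw [h0, Finsupp.single_zero]; exact Sup.zero
          · refine Sup.single _ ⟨by simp [hN, h0], ?_, ?_⟩
            · intro y hy; simp at hy
            · intro y hy; simp at hy
        | cons y l₂ =>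
          have hl₂ : l₂.length + 1 = N := by simpa using hl'N
          have h1 := hDs y l₂ (hsub _ _ hl'.1 hl) (by omega)
          refine Sup.mono (fun l'' hl'' => ?_) h1
          have hyT : (1 : G)⁻¹ * θ y ∈ insert 1 T := by
            have := hT _ hl x (by simp) y (hl'.1.subset (by simp))
            rw [hx] at this
            exact Finset.mem_insert_of_mem this
          have h2 := Sz_one.1 (H1 1 (θ y) hyT _ _ (hl''.mono subset_rfl (min_le_left _ _)))
          rwa [hl₂] at h2
    -- fillings
    have hfill : ∀ c : Ch k X, ∃ f : Ch k X, (bd c = 0 →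
        Sup (fun l' => l'.length = N + e ∧ Sm κ l' ∧ In A l') c →
        bd f = c ∧ Sup (fun l' => l'.length = N + e + 1 ∧ Sm ε l' ∧ In A' l') f) := by
      intro c
      by_cases h : bd c = 0 ∧ Sup (fun l' => l'.length = N + e ∧ Sm κ l' ∧ In A l') c
      · obtain ⟨f, hf⟩ := HF (N + e) c h.1 h.2
        exact ⟨f, fun _ _ => hf⟩
      · exact ⟨0, fun h1 h2 => absurd ⟨h1, h2⟩ h⟩
    choose fl hfl using hfill
    let D : List V → Ch k X := fun l => match l with
      | [] => D₀ []
      | x :: l₁ => if l₁.length = N then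
          tr (θ x) (fl (z ((x :: l₁).map fun y => (θ x)⁻¹ • y))) else D₀ (x :: l₁)
    have hDN : ∀ l : List V, l.length ≤ N → D l = D₀ l := by
      intro l hl
      cases l with
      | nil => rfl
      | cons x l₁ =>
        have : l₁.length ≠ N := by simp at hl; omega
        exact if_neg this
    have hDN' : ∀ (x : V) (l₁ : List V), l₁.length = N →
        D (x :: l₁) = tr (θ x) (fl (z ((x :: l₁).map fun y => (θ x)⁻¹ • y))) :=
      fun x l₁ h => if_pos h
    refine ⟨D, ?_, ?_, ?_, ?_⟩
    · exact hD0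
    · intro g l
      cases l with
      | nil => exact hDe g []
      | cons x l₁ =>
        by_cases h : l₁.length = N
        · rw [List.map_cons, hDN' _ _ (by rw [List.length_map]; exact h), hDN' _ _ h, tr_tr, hθ]
          congr 3
          rw [← List.map_cons (f := fun x : V => g • x), map_map_smul]
          congr 1
          funext y
          congr 1
          group
        · have h' : (l₁.map fun x => g • x).length ≠ N := by rw [List.length_map]; exact h
          have e1 : D (x :: l₁) = D₀ (x :: l₁) := if_neg h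
          have e2 : D ((x :: l₁).map fun x => g • x) = D₀ ((x :: l₁).map fun x => g • x) :=
            if_neg h'
          rw [e1, e2]
          exact hDe g _
    · intro l hl hlN
      have hext : ext D (bdL k l) = ext D₀ (bdL k l) :=
        ext_congr (sup_bdL l) fun l' hl' => hDN l' (by have := hl'.2; omega)
      rw [hext]
      by_cases h : l.length = N + 1
      · obtain ⟨x, l₁, rfl⟩ : ∃ x l₁, l = x :: l₁ := by
          cases l with
          | nil => simp at h
          | cons x l₁ => exact ⟨x, l₁, rfl⟩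
        have hl₁ : l₁.length = N := by simpa using h
        rw [hDN' _ _ hl₁, bd_tr]
        have hA0 := hinv (θ x)⁻¹ _ hl
        have h1 := (hfl (z ((x :: l₁).map fun y => (θ x)⁻¹ • y)) (hzb _ hA0 (by simpa using hl₁))
          (hzs _ hA0 (by simpa using hl₁) (by
            intro y hy
            simp only [List.map_cons, List.head?_cons, Option.mem_def, Option.some.injEq] at hy
            rw [← hy, hθ, inv_mul_cancel]))).1
        rw [h1, ← hze, map_map_smul, mul_inv_cancel]
        change z ((x :: l₁).map fun y => (1 : G) • y) = _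
        rw [map_one_smul]
      · rw [hDN l (by omega)]
        exact hDb l hl (by omega)
    · intro x l₁ hl hlN
      by_cases h : l₁.length = N
      · rw [hDN' _ _ h]
        have hA0 := hinv (θ x)⁻¹ _ hl
        have h1 := (hfl (z ((x :: l₁).map fun y => (θ x)⁻¹ • y)) (hzb _ hA0 (by simpa using h))
          (hzs _ hA0 (by simpa using h) (by
            intro y hy
            simp only [List.map_cons, List.head?_cons, Option.mem_def, Option.some.injEq] at hy
            rw [← hy, hθ, inv_mul_cancel]))).2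
        refine sup_tr h1 fun l' hl' => ?_
        have h2 : Sz (1 : G) A' ε (l₁.length + 1 + e) l' := Sz_one.2 ⟨by omega, hl'.2⟩
        have h3 := h2.tr (h := θ x)
        rwa [mul_one] at h3
      · have e1 : D (x :: l₁) = D₀ (x :: l₁) := if_neg h
        rw [e1]
        refine Sup.mono (fun l' hl' => ?_) (hDs x l₁ hl (by omega))
        exact hl'.mono (hC₀A.trans hAA') (min_le_right _ _)

end

end Vale.Agent.P260.H672
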