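import Vale.Agent.P260.H672.Cmp
import Vale.Agent.P260.H15.GDual

/-!
# P260, block A1: the comparison theorem and finiteness
-/

set_option linter.all false

open Set (univ image mem_iUnion₂)

namespace Vale.Agent.P260.H672

open Vale.Agent.P239.M (Ch ext bd bdL pf cone Sup CFillS FillS SmG CoAct sup_bdL ext_congr Sup.mono
  ext_bdL htp)
open Vale.Agent.P216.Sl (dl ev CocL ExL)
open Vale.Agent.P216.PS (SmL)
open Vale.Agent.P260.A (Inv CocG ExG Cmp)

variable {k : Type} [Field k] {G X N : Type} [Group G] [MetricSpace X] [MetricSpace N]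
  [MulAction G X] {p : X → N}

/-- **Block A1.** Comparison of the cohomology of the group with the cohomology of the quotient. -/
theorem exists_cmp_of [LocallyCompactSpace X] (hc : Cover G X N p) (hF : FillS k X)
    (hC : ∀ i, CFillS k G i) : ∃ (γ : N → N → G) (ε₀ : ℝ), Good γ ε₀ ∧ Cmp k G N (asm γ) ∧
      ∀ n (u : List N → k), CocL (univ : Set N) n u →
        ∃ f : List G → k, CocG n f ∧ ExL (univ : Set N) n fun l => u l - asm γ f l := by
  obtain ⟨σ, θ, γ, K, hd⟩ := exists_dat hc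
  obtain ⟨ε₀, hg⟩ := hd.good hc.inv
  have hsurj : ∀ n (u : List N → k), CocL (univ : Set N) n u →
      ∃ f : List G → k, CocG n f ∧ ExL (univ : Set N) n fun l => u l - asm γ f l := by
    rintro n u ⟨ε, hε, hu⟩
    obtain ⟨δ, hδ, H⟩ := asm_surj (k := k) hc hF hC hd n hε
    obtain ⟨f, hf, h, h0, hh⟩ := H u hu
    exact ⟨f, hf, h, h0, δ, hδ, hh⟩
  refine ⟨γ, ε₀, hg, ⟨fun i f hf => asm_coc hg hf, fun i f hf => asm_ex hg hf,
    fun i f hf h => asm_inj hc hF hC hd hf h, hsurj 1, fun i j f g hf hg' => ?_⟩, hsurj⟩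
  refine ⟨ε₀, hg.pos, fun l hl hs => asm_cup hg hf.1 hg'.1 hs ?_⟩
  rintro rfl
  simp at hl

/-- Finiteness: a cocycle which vanishes on the small lists is a coboundary. -/
theorem exG_of_small (hC : ∀ i, CFillS k G i) (n : ℕ) : ∃ R : Finset G, ∀ f : List G → k,
    CocG n f → (∀ l : List G, l.length = n + 1 → SmG R l → f l = 0) → ExG n f := by
  obtain ⟨R, -, π, hπ1, hπe, hπb, hπs⟩ := exists_pi hC ∅ (n + 1)
  refine ⟨R, fun f hf hR => ?_⟩
  have hπ0 : π [] = Finsupp.single [] 1 := hπ1 [] fun x hx => by simp at hx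
  have key : ∀ l : List G, l.length = n + 1 → f l = dl (fun l' => ext f (htp hdG π l')) l := by
    intro l hl
    have h1 := coc_htp (f := f) (fun l hl => by rw [← dl_eq]; exact hf.2 l hl) hπ0 hπb
      (fun l hl => Sup.mono (fun l' hl' => hl'.1) (hπs l hl)) hl
    have h2 : ext f (π l) = 0 := ext_zero' (hπs l hl.le) fun l' hl' => hR l' (hl'.1.trans hl) hl'.2
    rw [h1, h2, add_zero, dl_eq]
  rcases Nat.eq_zero_or_pos n with hn | hn
  · subst hn
    refine ⟨fun _ => 0, fun _ _ => rfl, fun _ _ => rfl, fun l hl => ?_⟩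
    rw [key l hl]
    obtain ⟨x, rfl⟩ : ∃ x, l = [x] := List.length_eq_one_iff.1 (by simpa using hl)
    rw [Vale.Agent.P216.N929.dl_cons, Vale.Agent.P216.N929.dl_nil, Vale.Agent.P216.N929.dl_cons,
      Vale.Agent.P216.N929.dl_nil, Vale.Agent.P239.M.htp_nil]
    simp
  · refine ⟨fun l' => ext f (htp hdG π l'), fun h => absurd h hn.ne', fun g l => ?_, key⟩
    have e1 : htp hdG π (l.map fun x => g * x) = tr g (htp hdG π l) :=
      htp_equiv hdG_smul hπe g l
    simp only []
    rw [e1, inv_ext hf.1]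

end Vale.Agent.P260.H672
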