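import Vale.Agent.P260.Spec4

/-!
P260, block G4: the derived series of a finite index subgroup has a term with finite image modulo
all `q`-residuals.
-/

namespace Vale.Agent.P260.H672

open scoped commutatorElement

/-! ### Schur's theorem -/

theorem finite_commutator_of_center {G : Type*} [Group G] (h : (Subgroup.center G).FiniteIndex) :
    Finite (commutator G) := by
  have : Finite (G ⧸ Subgroup.center G) := Subgroup.finite_quotient_of_finiteIndex
  have hfin : Finite (commutatorSet G) := by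
    have h1 : commutatorSet G ⊆ Set.range (fun p : (G ⧸ Subgroup.center G) ×
        (G ⧸ Subgroup.center G) => ⁅p.1.out, p.2.out⁆) := by
      rintro x ⟨a, b, rfl⟩
      refine ⟨(QuotientGroup.mk a, QuotientGroup.mk b), ?_⟩
      obtain ⟨z, hz⟩ := QuotientGroup.mk_out_eq_mul (Subgroup.center G) a
      obtain ⟨w, hw⟩ := QuotientGroup.mk_out_eq_mul (Subgroup.center G) b
      simp only [hz, hw]
      have hzc := Subgroup.mem_center_iff.1 z.2
      have hwc := Subgroup.mem_center_iff.1 w.2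
      have hz' : ∀ g, (z : G) * g = g * z := fun g => (hzc g).symm
      have hw' : ∀ g, (w : G) * g = g * w := fun g => (hwc g).symm
      rw [commutatorElement_def, commutatorElement_def, mul_inv_rev, mul_inv_rev]
      have e1 : a * (z : G) * (b * (w : G)) * ((z : G)⁻¹ * a⁻¹) * ((w : G)⁻¹ * b⁻¹) =
          a * ((z : G) * (b * (w : G))) * (z : G)⁻¹ * a⁻¹ * (w : G)⁻¹ * b⁻¹ := by group
      rw [e1, hz' (b * w)]
      have e2 : a * (b * (w : G) * z) * (z : G)⁻¹ * a⁻¹ * (w : G)⁻¹ * b⁻¹ =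
          a * b * ((w : G) * a⁻¹) * (w : G)⁻¹ * b⁻¹ := by group
      rw [e2, hw' a⁻¹]
      group
    exact Set.Finite.to_subtype (Set.Finite.subset (Set.finite_range _) h1)
  infer_instance

/-- a subgroup `D` with a finite index subgroup commuting with `D` has finite commutator -/
theorem finite_commutator {Q : Type*} [Group Q] (D N : Subgroup Q) (hN : N.FiniteIndex)
    (hc : ∀ g ∈ D, ∀ x ∈ N, g * x = x * g) : Finite (⁅D, D⁆ : Subgroup Q) := by
  have h1 : (Subgroup.center D).FiniteIndex := by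
    have h2 : N.subgroupOf D ≤ Subgroup.center D := by
      intro x hx
      rw [Subgroup.mem_center_iff]
      intro g
      exact Subtype.ext (hc g g.2 x hx)
    exact Subgroup.finiteIndex_of_le h2
  have h3 : Finite (commutator D) := finite_commutator_of_center h1
  have h4 : (commutator D).map D.subtype = ⁅D, D⁆ := by
    rw [commutator_def, Subgroup.map_commutator, ← MonoidHom.range_eq_map, Subgroup.range_subtype]
  rw [← h4]
  have h5 := Set.Finite.image D.subtype (Set.toFinite ((commutator D : Subgroup D) : Set D))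
  exact h5.to_subtype

/-! ### homomorphisms to `ℤ/q` -/

theorem finite_hom {L : Type*} [Group L] (h : Group.FG L) (A : Type*) [Group A] [Finite A] :
    Finite (L →* A) := by
  obtain ⟨S, hS⟩ := Group.fg_def.1 h
  refine Finite.of_injective (fun (f : L →* A) (s : S) => f s) ?_
  intro f g hfg
  refine MonoidHom.eq_of_eqOn_dense hS ?_
  intro s hs
  exact congrFun hfg ⟨s, hs⟩

theorem card_hom_le {L L' : Type*} [Group L] [Group L'] (h : Group.FG L) (φ : L →* L')
    (hφ : Function.Surjective φ) (A : Type*) [CommGroup A] [Finite A] :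
    Nat.card (L' →* A) ≤ Nat.card (L →* A) := by
  have := finite_hom h A
  refine Nat.card_le_card_of_injective (fun f : L' →* A => f.comp φ) ?_
  intro f g hfg
  ext x
  obtain ⟨y, rfl⟩ := hφ x
  exact DFunLike.congr_fun hfg y

theorem rankBound_quot {G : Type} [Group G] (hfg : Group.FG G) (R : Subgroup G) [R.Normal]
    (q r : ℕ) [Fact q.Prime]
    (hr : ∀ L : Subgroup G, L.FiniteIndex → Nat.card (L →* Multiplicative (ZMod q)) ≤ q ^ r)
    (L : Subgroup (G ⧸ R)) (hL : L.FiniteIndex) :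
    Nat.card (L →* Multiplicative (ZMod q)) ≤ q ^ r := by
  have h1 : (L.comap (QuotientGroup.mk' R)).FiniteIndex :=
    ⟨by rw [Subgroup.index_comap_of_surjective L (QuotientGroup.mk'_surjective R)]
        exact hL.index_ne_zero⟩
  have h2 : Group.FG (L.comap (QuotientGroup.mk' R)) := by
    have := hfg
    infer_instance
  refine le_trans (card_hom_le h2 ((QuotientGroup.mk' R).subgroupComap L) ?_ _) (hr _ h1)
  intro y
  obtain ⟨x, hx⟩ := QuotientGroup.mk'_surjective R y
  exact ⟨⟨x, by rw [Subgroup.mem_comap, hx]; exact y.2⟩, Subtype.ext hx⟩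

/-! ### the `q`-residual -/

section rq

variable {q : ℕ} {G : Type*} [Group G]

theorem rq_le (H : Subgroup G) : RQ q H ≤ H := by
  refine sInf_le ⟨le_refl _, ?_, 0, ?_⟩
  · rw [Subgroup.subgroupOf_self]; infer_instance
  · rw [Subgroup.relIndex_self, pow_zero]

/-- conjugates of members -/
theorem conj_mem (H : Subgroup G) [H.Normal] (g : G) (W : Subgroup G) (hW : W ≤ H)
    (hn : (W.subgroupOf H).Normal) (hq : QPow q (W.relIndex H)) :
    (W.map (MulAut.conj g).toMonoidHom) ≤ H ∧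
      ((W.map (MulAut.conj g).toMonoidHom).subgroupOf H).Normal ∧
      QPow q ((W.map (MulAut.conj g).toMonoidHom).relIndex H) := by
  have hH : H.map (MulAut.conj g).toMonoidHom = H := by
    ext x
    constructor
    · rintro ⟨y, hy, rfl⟩
      exact ‹H.Normal›.conj_mem y hy g
    · intro hx
      refine ⟨g⁻¹ * x * g, ?_, ?_⟩
      · have := ‹H.Normal›.conj_mem x hx g⁻¹
        rwa [inv_inv] at this
      · simp [MulAut.conj_apply, mul_assoc]
  refine ⟨?_, ?_, ?_⟩
  · rw [← hH]; exact Subgroup.map_mono hW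
  · constructor
    rintro ⟨n, hn'⟩ ⟨y, hy, hyn⟩ ⟨h, hh⟩
    have hyn' : g * y * g⁻¹ = n := hyn
    refine ⟨(g⁻¹ * h * g) * y * (g⁻¹ * h * g)⁻¹, ?_, ?_⟩
    · have h1 : g⁻¹ * h * g ∈ H := by
        have := ‹H.Normal›.conj_mem h hh g⁻¹
        rwa [inv_inv] at this
      have := hn.conj_mem ⟨y, hW hy⟩ (Subgroup.mem_subgroupOf.2 hy) ⟨_, h1⟩
      exact this
    · change g * ((g⁻¹ * h * g) * y * (g⁻¹ * h * g)⁻¹) * g⁻¹ = h * n * h⁻¹
      rw [← hyn']
      group
  · have : (W.map (MulAut.conj g).toMonoidHom).relIndex H = W.relIndex H := by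
      conv_lhs => rw [← hH]
      exact Subgroup.relIndex_map_map_of_injective W H (MulAut.conj g).injective
    rw [this]; exact hq

instance rq_normal (H : Subgroup G) [H.Normal] : (RQ q H).Normal := by
  constructor
  intro n hn g
  rw [RQ, Subgroup.mem_sInf] at hn ⊢
  rintro W ⟨hW, hWn, hWq⟩
  obtain ⟨h1, h2, h3⟩ := conj_mem H g⁻¹ W hW hWn hWq
  obtain ⟨y, hy, hyn⟩ := hn _ ⟨h1, h2, h3⟩
  have hyn' : g⁻¹ * y * g⁻¹⁻¹ = n := hyn
  rw [← hyn']
  have : g * (g⁻¹ * y * g⁻¹⁻¹) * g⁻¹ = y := by group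
  rw [this]
  exact hy

/-- every element outside the residual is detected -/
theorem exists_of_notMem {H : Subgroup G} {x : G} (hx : x ∉ RQ q H) :
    ∃ W : Subgroup G, W ≤ H ∧ (W.subgroupOf H).Normal ∧ QPow q (W.relIndex H) ∧ x ∉ W := by
  by_contra hcon
  push Not at hcon
  exact hx (Subgroup.mem_sInf.2 fun W hW => hcon W hW.1 hW.2.1 hW.2.2)

theorem resQ_quot (H : Subgroup G) [H.Normal] :
    ResQ q (H.map (QuotientGroup.mk' (RQ q H))) := by
  rintro ⟨g, x, hx, rfl⟩ hg
  have hxR : x ∉ RQ q H := by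
    intro h
    apply hg
    apply Subtype.ext
    exact (QuotientGroup.eq_one_iff x).2 h
  obtain ⟨W, hW, hWn, ⟨k, hk⟩, hxW⟩ := exists_of_notMem hxR
  have hRW : RQ q H ≤ W := sInf_le ⟨hW, hWn, k, hk⟩
  refine ⟨(W.map (QuotientGroup.mk' (RQ q H))).subgroupOf _, ?_, ?_, k, ?_⟩
  · constructor
    rintro ⟨_, n, hn, rfl⟩ ⟨y, hy, hyn⟩ ⟨_, h, hh, rfl⟩
    have e : (QuotientGroup.mk' (RQ q H)) y = (QuotientGroup.mk' (RQ q H)) n := hyn
    refine ⟨h * y * h⁻¹, ?_, ?_⟩
    · exact hWn.conj_mem ⟨y, hW hy⟩ (Subgroup.mem_subgroupOf.2 hy) ⟨h, hh⟩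
    · change (QuotientGroup.mk' (RQ q H)) (h * y * h⁻¹) = (QuotientGroup.mk' (RQ q H)) h *
        (QuotientGroup.mk' (RQ q H)) n * ((QuotientGroup.mk' (RQ q H)) h)⁻¹
      rw [map_mul, map_mul, map_inv, e]
  · rintro ⟨y, hy, hyx⟩
    have h1 : y⁻¹ * x ∈ RQ q H := QuotientGroup.eq.1 hyx
    apply hxW
    have := W.mul_mem hy (hRW h1)
    rwa [mul_inv_cancel_left] at this
  · change (W.map (QuotientGroup.mk' (RQ q H))).relIndex (H.map (QuotientGroup.mk' (RQ q H))) = _
    rw [← hk]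
    rw [Subgroup.relIndex_map_map, QuotientGroup.ker_mk', sup_of_le_left hRW,
      sup_of_le_left (hRW.trans hW)]

end rq

/-! ### a small normal subgroup of `q`-power index avoiding a finite set -/

theorem exists_avoid {q : ℕ} [Fact q.Prime] {G : Type*} [Group G] (H : Subgroup G) [hn : H.Normal]
    (hf : H.FiniteIndex) {ι : Type*} [Finite ι] (x : ι → G) (hx : ∀ i, x i ∉ RQ q H) :
    ∃ W : Subgroup G, W.Normal ∧ W ≤ H ∧ QPow q (W.relIndex H) ∧ ∀ i, x i ∉ W := by
  classical
  have := Fintype.ofFinite ι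
  choose V hVH hVn hVq hxV using fun i => exists_of_notMem (hx i)
  choose k hk using hVq
  have hVf : ∀ i, (V i).FiniteIndex := by
    intro i
    have h1 : (V i).relIndex H ≠ 0 := by
      rw [hk i]; exact pow_ne_zero _ (Fact.out : q.Prime).ne_zero
    refine ⟨?_⟩
    rw [← Subgroup.relIndex_mul_index (hVH i)]
    exact mul_ne_zero h1 hf.index_ne_zero
  refine ⟨H ⊓ ⨅ i, (V i).normalCore, ?_, inf_le_left, ?_, ?_⟩
  · have : (⨅ i, (V i).normalCore).Normal := Subgroup.normal_iInf_normal fun i => inferInstance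
    infer_instance
  · -- the quotient is a `q`-group
    set W : Subgroup G := H ⊓ ⨅ i, (V i).normalCore with hW
    have hWf : W.FiniteIndex := by
      have h1 : (⨅ i, (V i).normalCore).FiniteIndex :=
        Subgroup.finiteIndex_iInf fun i => inferInstance
      infer_instance
    have hWn : W.Normal := by
      have : (⨅ i, (V i).normalCore).Normal := Subgroup.normal_iInf_normal fun i => inferInstance
      infer_instance
    have hWsf : (W.subgroupOf H).FiniteIndex := inferInstance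
    have hfin : Finite (H ⧸ W.subgroupOf H) := Subgroup.finite_quotient_of_finiteIndex
    have hp : IsPGroup q (H ⧸ W.subgroupOf H) := by
      intro y
      obtain ⟨⟨h, hh⟩, rfl⟩ := QuotientGroup.mk'_surjective _ y
      refine ⟨∑ i, k i, ?_⟩
      rw [← map_pow]
      refine (QuotientGroup.eq_one_iff _).2 ?_
      rw [Subgroup.mem_subgroupOf]
      have hpow : ∀ i, ∀ z ∈ H, z ^ q ^ (∑ i, k i) ∈ V i := by
        intro i z hz
        have h1 : ∀ u : H, u ^ ((V i).subgroupOf H).index ∈ (V i).subgroupOf H := by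
          intro u
          have := hVn i
          exact Subgroup.pow_index_mem _ u
        have h2 : z ^ q ^ k i ∈ V i := by
          have := h1 ⟨z, hz⟩
          rw [Subgroup.mem_subgroupOf] at this
          have e : ((V i).subgroupOf H).index = q ^ k i := hk i
          rw [e] at this
          exact this
        obtain ⟨c, hc⟩ : q ^ k i ∣ q ^ (∑ i, k i) :=
          pow_dvd_pow _ (Finset.single_le_sum (f := k) (fun _ _ => Nat.zero_le _)
            (Finset.mem_univ i))
        rw [hc, pow_mul]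
        exact (V i).pow_mem h2 c
      refine ⟨H.pow_mem hh _, ?_⟩
      refine Subgroup.mem_iInf.2 fun i => ?_
      intro g
      change g * (h ^ q ^ (∑ i, k i)) * g⁻¹ ∈ V i
      rw [← conj_pow]
      exact hpow i _ (hn.conj_mem h hh g)
    obtain ⟨n, hn'⟩ := (IsPGroup.iff_card).1 hp
    exact ⟨n, hn'⟩
  · intro i hi
    exact hxV i ((V i).normalCore_le (Subgroup.mem_iInf.1 hi.2 i))

/-! ### block G4 -/

/-- the representation for one pair -/
theorem exists_rep (hE : BlockE2) {G : Type} [Group G] (hfg : Group.FG G) (r : ℕ)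
    (hr : RankBound r G) (q : ℕ) [Fact q.Prime] (H : Subgroup G) (hn : H.Normal)
    (hf : H.FiniteIndex) :
    ∃ m ≤ r, ∃ (ρ : G →* GL (Fin m) ℚ_[q]) (N : Subgroup G), N.FiniteIndex ∧
      ∀ g, ρ g = 1 → ∀ x ∈ N, (g * x)⁻¹ * (x * g) ∈ RQ q H := by
  have hfgQ : Group.FG (G ⧸ RQ q H) := by
    have := hfg
    infer_instance
  have hHf : (H.map (QuotientGroup.mk' (RQ q H))).FiniteIndex := by
    refine ⟨?_⟩
    have h1 := Subgroup.index_map_dvd H (QuotientGroup.mk'_surjective (RQ q H))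
    exact ne_zero_of_dvd_ne_zero hf.index_ne_zero h1
  obtain ⟨m, hm, ρ, N, -, hNf, hc⟩ := hE q (G ⧸ RQ q H) hfgQ (H.map (QuotientGroup.mk' (RQ q H)))
    (hn.map _ (QuotientGroup.mk'_surjective _)) hHf (resQ_quot H) r
    (fun L hL => rankBound_quot hfg (RQ q H) q r (hr q) L hL)
  refine ⟨m, hm, ρ.comp (QuotientGroup.mk' (RQ q H)), N.comap (QuotientGroup.mk' (RQ q H)), ?_, ?_⟩
  · exact ⟨by rw [Subgroup.index_comap_of_surjective N (QuotientGroup.mk'_surjective _)]
              exact hNf.index_ne_zero⟩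
  · intro g hg x hx
    have h1 := hc _ hg _ hx
    exact QuotientGroup.eq.1 h1

/-- finiteness of the image of the commutator subgroup -/
theorem finite_image {G : Type*} [Group G] (R : Subgroup G) [R.Normal] (D N : Subgroup G)
    (hN : N.FiniteIndex) (h : ∀ g ∈ D, ∀ x ∈ N, (g * x)⁻¹ * (x * g) ∈ R) :
    Finite ((⁅D, D⁆ : Subgroup G).map (QuotientGroup.mk' R)) := by
  have hNf : (N.map (QuotientGroup.mk' R)).FiniteIndex := by
    refine ⟨?_⟩
    have h1 := Subgroup.index_map_dvd N (QuotientGroup.mk'_surjective R)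
    exact ne_zero_of_dvd_ne_zero hN.index_ne_zero h1
  rw [Subgroup.map_commutator]
  refine finite_commutator _ (N.map (QuotientGroup.mk' R)) hNf ?_
  rintro _ ⟨g, hg, rfl⟩ _ ⟨x, hx, rfl⟩
  exact QuotientGroup.eq.2 (h g hg x hx)

/-- the index type of the family of representations -/
def Idx (G : Type) [Group G] : Type :=
  {p : ℕ × Subgroup G // p.1.Prime ∧ p.2.Normal ∧ p.2.FiniteIndex}

theorem blockG4_of (hE : BlockE2) (hF : BlockF2) : BlockG4 := by
  intro G _ hfg hFol r hr
  -- the representations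
  have key : ∀ i : Idx G, ∃ m ≤ r, ∃ (ρ : G →* GL (Fin m) (@Padic i.1.1 ⟨i.2.1⟩))
      (N : Subgroup G), N.FiniteIndex ∧
      ∀ g, ρ g = 1 → ∀ x ∈ N, (g * x)⁻¹ * (x * g) ∈ RQ i.1.1 i.1.2 := by
    rintro ⟨⟨q, H⟩, hq, hn, hf⟩
    exact @exists_rep hE G _ hfg r hr q ⟨hq⟩ H hn hf
  choose m hm ρ N hNf hN using key
  have hchar : ∀ i : Idx G, CharZero (@Padic i.1.1 ⟨i.2.1⟩) := fun i => inferInstance
  obtain ⟨H₀, h0n, h0f, d, hd⟩ := hF G hfg hFol (Idx G) (fun i => @Padic i.1.1 ⟨i.2.1⟩) r m hm ρ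
  refine ⟨H₀, h0n, h0f, d + 1, ?_⟩
  intro q _ H hHn hHf
  set i : Idx G := ⟨⟨q, H⟩, Fact.out, hHn, hHf⟩ with hi
  set D : Subgroup G := (derivedSeries H₀ d).map H₀.subtype with hD
  have hDD : (derivedSeries H₀ (d + 1)).map H₀.subtype = ⁅D, D⁆ := by
    rw [derivedSeries_succ, Subgroup.map_commutator]
  rw [hDD]
  have hcomm : ∀ g ∈ D, ∀ x ∈ N i, (g * x)⁻¹ * (x * g) ∈ RQ q H := by
    rintro _ ⟨g, hg, rfl⟩ x hx
    exact hN i _ (hd i g hg) x hx
  have hfin := finite_image (RQ q H) D (N i) (hNf i) hcomm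
  -- the nontrivial elements of the image
  let ι : Type := {y : (⁅D, D⁆ : Subgroup G).map (QuotientGroup.mk' (RQ q H)) // y ≠ 1}
  have : Finite ι := inferInstance
  have hrep : ∀ y : ι, ∃ x : G, QuotientGroup.mk' (RQ q H) x = (y.1 : G ⧸ RQ q H) :=
    fun y => QuotientGroup.mk'_surjective _ _
  choose x hx using hrep
  obtain ⟨W, hWn, hWH, hWq, hW⟩ := exists_avoid (q := q) H hHf x (by
    intro y hy
    have h1 : (QuotientGroup.mk' (RQ q H)) (x y) = 1 := (QuotientGroup.eq_one_iff _).2 hy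
    rw [hx y] at h1
    exact y.2 (Subtype.ext h1))
  refine ⟨W, hWn, hWH, hWq, ?_⟩
  rintro z ⟨hz, hzW⟩
  by_contra hcon
  have hz1 : QuotientGroup.mk' (RQ q H) z ∈ (⁅D, D⁆ : Subgroup G).map
      (QuotientGroup.mk' (RQ q H)) := ⟨z, hz, rfl⟩
  have hz2 : (⟨_, hz1⟩ : (⁅D, D⁆ : Subgroup G).map (QuotientGroup.mk' (RQ q H))) ≠ 1 := by
    intro h
    exact hcon ((QuotientGroup.eq_one_iff z).1 (congrArg Subtype.val h))
  have h3 := hx ⟨⟨_, hz1⟩, hz2⟩
  apply hW ⟨⟨_, hz1⟩, hz2⟩
  have h4 : z⁻¹ * x ⟨⟨_, hz1⟩, hz2⟩ ∈ RQ q H := QuotientGroup.eq.1 h3.symm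
  have hRW : RQ q H ≤ W := by
    refine sInf_le ⟨hWH, ?_, hWq⟩
    infer_instance
  have := W.mul_mem hzW (hRW h4)
  rwa [mul_inv_cancel_left] at this

end Vale.Agent.P260.H672
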