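import Vale.Agent.P260.H672.Ext

/-!
# P260, block A1: sections, transports and fine lifts
-/

set_option linter.all false

open Set (univ image mem_iUnion₂)

namespace Vale.Agent.P260.H672

open Vale.Agent.P239.M

variable {G X N : Type} [Group G] [MetricSpace X] [MetricSpace N] [MulAction G X] {p : X → N}

/-- Sections and transports. -/
structure Dat (p : X → N) (σ : N → X) (θ : X → G) (γ : N → N → G) (K : Set X) : Prop where
  Kc : IsCompact K
  psig : ∀ y, p (σ y) = y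
  sigK : ∀ y, σ y ∈ K
  theq : ∀ (g : G) x, θ (g • x) = g * θ x
  thsig : ∀ x, θ x • σ (p x) = x
  thone : ∀ y, θ (σ y) = 1
  loc : ∀ C : Set X, IsCompact C → ∃ κ > 0, ∀ x ∈ C, ∀ x' ∈ C, dist x x' < κ →
    γ (p x) (p x') = (θ x)⁻¹ * θ x'
  lift : ∀ κ > 0, ∃ δ > 0, ∀ y y', dist y y' < δ →
    dist (σ y) (γ y y' • σ y') < κ ∧ γ y y' • σ y' ∈ K

theorem finite_min {ι : Type*} (s : Set ι) (hs : s.Finite) (P : ι → ℝ → Prop)
    (hP : ∀ i a b, 0 < b → b ≤ a → P i a → P i b) (h : ∀ i ∈ s, ∃ c > 0, P i c) :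
    ∃ c > 0, ∀ i ∈ s, P i c := by
  classical
  induction s, hs using Set.Finite.induction_on with
  | empty => exact ⟨1, one_pos, by simp⟩
  | @insert a s ha hs ih =>
    obtain ⟨c, hc, h1⟩ := ih fun i hi => h i (Set.mem_insert_of_mem _ hi)
    obtain ⟨c', hc', h2⟩ := h a (Set.mem_insert _ _)
    refine ⟨min c c', lt_min hc hc', fun i hi => ?_⟩
    rcases Set.mem_insert_iff.1 hi with rfl | hi
    · exact hP _ _ _ (lt_min hc hc') (min_le_right _ _) h2
    · exact hP _ _ _ (lt_min hc hc') (min_le_left _ _) (h1 i hi)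

theorem exists_dat [LocallyCompactSpace X] (hc : Cover G X N p) :
    ∃ (σ : N → X) (θ : X → G) (γ : N → N → G) (K : Set X), Dat p σ θ γ K := by
  classical
  obtain ⟨B, hB, hBcov⟩ := hc.act.cocomp
  -- the section
  have hs : ∀ y : N, ∃ x ∈ B, p x = y := by
    intro y
    obtain ⟨x, rfl⟩ := hc.surj y
    obtain ⟨g, z, hz, rfl⟩ := hBcov x
    exact ⟨z, hz, (hc.inv g z).symm⟩
  choose σ hσB hσ using hs
  have hth : ∀ x : X, ∃ g : G, g • σ (p x) = x := fun x => hc.orb _ _ (hσ (p x))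
  choose θ hθ using hth
  have free : ∀ (g h : G) (x : X), g • x = h • x → g = h := by
    intro g h x hx
    have : (h⁻¹ * g) • x = x := by rw [mul_smul, hx, inv_smul_smul]
    have := hc.act.free _ _ this
    exact (inv_mul_eq_one.1 this).symm
  have hθe : ∀ (g : G) x, θ (g • x) = g * θ x := by
    intro g x
    refine free _ _ (σ (p x)) ?_
    have h1 := hθ (g • x)
    rw [hc.inv] at h1
    rw [h1, mul_smul, hθ]
  have hθ1 : ∀ y, θ (σ y) = 1 := by
    intro y
    refine free _ _ (σ y) ?_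
    have h1 := hθ (σ y)
    rw [hσ] at h1
    rw [h1, one_smul]
  -- the neighbourhood
  obtain ⟨K, hK, hBK⟩ := exists_compact_superset hB
  obtain ⟨κ₁, hκ₁, hκK⟩ := hB.exists_thickening_subset_open isOpen_interior hBK
  have hK1 : ∀ x ∈ B, ∀ x', dist x x' < κ₁ → x' ∈ K := fun x hx x' hxx' =>
    interior_subset (hκK (Metric.mem_thickening_iff.2 ⟨x, hx, by rwa [dist_comm]⟩))
  have hBK' : B ⊆ K := fun x hx => hK1 x hx x (by rwa [dist_self])
  -- separation
  have hsep : ∀ g : G, g ≠ 1 → ∃ c > 0, ∀ x ∈ K, c ≤ dist x (g • x) := by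
    intro g hg
    rcases K.eq_empty_or_nonempty with h | h
    · exact ⟨1, one_pos, by simp [h]⟩
    · obtain ⟨x₀, hx₀, hm⟩ := hK.exists_isMinOn h
        ((continuous_id.dist (hc.act.cont g)).continuousOn (s := K))
      refine ⟨dist x₀ (g • x₀), dist_pos.2 fun h => hg (hc.act.free _ _ h.symm), fun x hx => ?_⟩
      exact hm hx
  obtain ⟨c₀, hc₀, hc₀'⟩ := finite_min {g : G | ∃ y ∈ K, g • y ∈ K} (hc.act.proper K K hK hK)
    (fun g c => g ≠ 1 → ∀ x ∈ K, c ≤ dist x (g • x))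
    (fun g a b _ hab h hg x hx => hab.trans (h hg x hx)) (fun g _ => by
      by_cases hg : g = 1
      · exact ⟨1, one_pos, fun h => absurd hg h⟩
      · obtain ⟨c, hc, h⟩ := hsep g hg
        exact ⟨c, hc, fun _ => h⟩)
  set κ₀ : ℝ := min κ₁ (c₀ / 2) with hκ₀
  have hκ₀pos : 0 < κ₀ := lt_min hκ₁ (by positivity)
  let γ : N → N → G := fun y y' => if h : ∃ g : G, dist (σ y) (g • σ y') < κ₀ then h.choose else 1
  have hγ : ∀ y y' (g : G), dist (σ y) (g • σ y') < κ₀ → γ y y' = g := by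
    intro y y' g hg
    have h : ∃ g : G, dist (σ y) (g • σ y') < κ₀ := ⟨g, hg⟩
    have e : γ y y' = h.choose := dif_pos h
    have h1 := h.choose_spec
    rw [← e] at h1
    set g' := γ y y' with hg'
    have m1 : g • σ y' ∈ K := hK1 _ (hσB y) _ (hg.trans_le (min_le_left _ _))
    have m2 : g' • σ y' ∈ K := hK1 _ (hσB y) _ (h1.trans_le (min_le_left _ _))
    by_contra hne
    have e2 : (g' * g⁻¹) • (g • σ y') = g' • σ y' := by rw [← mul_smul]; simp
    have h2 := hc₀' (g' * g⁻¹) ⟨_, m1, by rw [e2]; exact m2⟩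
      (fun h => hne (mul_inv_eq_one.1 h)) _ m1
    rw [e2] at h2
    have h3 := dist_triangle_left (g • σ y') (g' • σ y') (σ y)
    have h4 : κ₀ ≤ c₀ / 2 := min_le_right _ _
    linarith
  refine ⟨σ, θ, γ, K, hK, hσ, fun y => hBK' (hσB y), hθe, hθ, hθ1, ?_, ?_⟩
  · intro C hC
    obtain ⟨κ, hκ, h⟩ := finite_min {g : G | ∃ y ∈ B, g • y ∈ C} (hc.act.proper B C hB hC)
      (fun g c => ∀ x ∈ C, ∀ x' ∈ C, dist x x' < c → dist (g⁻¹ • x) (g⁻¹ • x') < κ₀)
      (fun g a b _ hab h x hx x' hx' hd => h x hx x' hx' (hd.trans_le hab)) (fun g _ => by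
        exact Metric.uniformContinuousOn_iff.1
          (hC.uniformContinuousOn_of_continuous (hc.act.cont g⁻¹).continuousOn) κ₀ hκ₀pos)
    refine ⟨κ, hκ, fun x hx x' hx' hd => hγ _ _ _ ?_⟩
    have h1 := h (θ x) ⟨σ (p x), hσB _, by rw [hθ]; exact hx⟩ x hx x' hx' hd
    have e1 : (θ x)⁻¹ • x = σ (p x) := by
      conv_lhs => rw [← hθ x]
      rw [hθe, hθ1, mul_one, inv_smul_smul]
    have e2 : (θ x)⁻¹ • x' = ((θ x)⁻¹ * θ x') • σ (p x') := by rw [mul_smul, hθ]
    rwa [e1, e2] at h1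
  · intro κ' hκ'
    set κ : ℝ := min κ' κ₀ with hκdef
    have hκ : 0 < κ := lt_min hκ' hκ₀pos
    have h1 : ∀ x : X, ∃ d > 0, Metric.ball (p x) (2 * d) ⊆ p '' Metric.ball x (κ / 2) := by
      intro x
      have ho : IsOpen (p '' Metric.ball x (κ / 2)) := hc.op _ Metric.isOpen_ball
      obtain ⟨d, hd, h⟩ := Metric.isOpen_iff.1 ho (p x)
        ⟨x, Metric.mem_ball_self (by positivity), rfl⟩
      exact ⟨d / 2, by positivity, by rwa [mul_div_cancel₀ d two_ne_zero]⟩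
    choose d hd hdb using h1
    obtain ⟨t, -, ht⟩ := hB.elim_nhds_subcover
      (fun x => Metric.ball x (κ / 2) ∩ p ⁻¹' Metric.ball (p x) (d x)) fun x _ =>
        Filter.inter_mem (Metric.ball_mem_nhds _ (by positivity))
          (hc.cont.continuousAt.preimage_mem_nhds (Metric.ball_mem_nhds _ (hd x)))
    obtain ⟨δ, hδ, hδ'⟩ := finite_min (t : Set X) t.finite_toSet (fun x c => c ≤ d x)
      (fun x a b _ hab h => hab.trans h) fun x _ => ⟨d x, hd x, le_rfl⟩
    refine ⟨δ, hδ, fun y y' hyy' => ?_⟩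
    obtain ⟨x, hxt, hx⟩ := mem_iUnion₂.1 (ht (hσB y))
    have h2 : y' ∈ Metric.ball (p x) (2 * d x) := by
      have a1 : dist (p (σ y)) (p x) < d x := hx.2
      rw [hσ] at a1
      have a2 := hδ' x hxt
      rw [Metric.mem_ball]
      have := dist_triangle y' y (p x)
      rw [dist_comm y' y] at this
      linarith
    obtain ⟨x', hx', hpx'⟩ := hdb x h2
    obtain ⟨g, hg⟩ := hc.orb (σ y') x' (by rw [hσ, hpx'])
    have h3 : dist (σ y) (g • σ y') < κ := by
      rw [hg]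
      have a1 : dist (σ y) x < κ / 2 := hx.1
      have a2 : dist x' x < κ / 2 := hx'
      have := dist_triangle_right (σ y) x' x
      linarith
    have h4 := hγ y y' g (h3.trans_le (min_le_right _ _))
    rw [h4]
    exact ⟨h3.trans_le (min_le_left _ _), hK1 _ (hσB y) _
      ((h3.trans_le (min_le_right _ _)).trans_le (min_le_left _ _))⟩

theorem Dat.good {σ : N → X} {θ : X → G} {γ : N → N → G} {K : Set X} (hd : Dat p σ θ γ K)
    (hinv : ∀ (g : G) x, p (g • x) = p x) : ∃ ε₀, Good γ ε₀ := by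
  obtain ⟨κ, hκ, h⟩ := hd.loc K hd.Kc
  obtain ⟨δ, hδ, h'⟩ := hd.lift (κ / 2) (by positivity)
  refine ⟨δ, hδ, fun x y z hxy hyz hxz => ?_⟩
  obtain ⟨a1, a2⟩ := h' x y hxy
  obtain ⟨b1, b2⟩ := h' x z hxz
  have h1 := h _ a2 _ b2 (by
    have := dist_triangle_left (γ x y • σ y) (γ x z • σ z) (σ x)
    linarith)
  rw [hinv, hinv, hd.psig, hd.psig, hd.theq, hd.theq, hd.thone, hd.thone, mul_one, mul_one] at h1
  rw [h1, mul_inv_cancel_left]

theorem Dat.gamma_self {σ : N → X} {θ : X → G} {γ : N → N → G} {K : Set X} (hd : Dat p σ θ γ K)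
    (y : N) : γ y y = 1 := by
  obtain ⟨κ, hκ, h⟩ := hd.loc K hd.Kc
  have := h _ (hd.sigK y) _ (hd.sigK y) (by rwa [dist_self])
  rwa [hd.psig, inv_mul_cancel] at this

end Vale.Agent.P260.H672
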