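import Vale.Agent.P260.H672.Ext

/-!
# P260, block A1: equivariant contraction of all lists to small lists of the group
-/

set_option linter.all false

open Set (univ image mem_iUnion₂)

namespace Vale.Agent.P260.H672

open Vale.Agent.P239.M

section

variable {k : Type*} [CommRing k] {G : Type*} [Group G]

theorem SmG_smul {R : Finset G} {g : G} {l : List G} :
    SmG R (l.map fun x => g • x) ↔ SmG R l := by
  have e : ∀ x y : G, (g • x)⁻¹ * (g • y) = x⁻¹ * y := fun x y => by
    rw [smul_eq_mul, smul_eq_mul]; group
  constructor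
  · intro h x hx y hy
    have := h (g • x) (List.mem_map.2 ⟨x, hx, rfl⟩) (g • y) (List.mem_map.2 ⟨y, hy, rfl⟩)
    rwa [e] at this
  · intro h x hx y hy
    obtain ⟨x', hx', rfl⟩ := List.mem_map.1 hx
    obtain ⟨y', hy', rfl⟩ := List.mem_map.1 hy
    rw [e]
    exact h x' hx' y' hy'

theorem SmG_sub {R : Finset G} {l l' : List G} (h : l'.Sublist l) (hl : SmG R l) : SmG R l' :=
  fun x hx y hy => hl x (h.subset hx) y (h.subset hy)

theorem SmG_mono {R R' : Finset G} (h : R ⊆ R') {l : List G} (hl : SmG R l) : SmG R' l :=
  fun x hx y hy => h (hl x hx y hy)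

theorem exists_pi (hC : ∀ i, CFillS k G i) (R : Finset G) (N : ℕ) : ∃ R' : Finset G, R ⊆ R' ∧
    ∃ π : List G → Ch k G, (∀ l, SmG R l → π l = Finsupp.single l 1) ∧
      (∀ (g : G) l, π (l.map fun x => g • x) = tr g (π l)) ∧
      (∀ l, l.length ≤ N → bd (π l) = ext π (bdL k l)) ∧
      ∀ l, l.length ≤ N → Sup (fun l' => l'.length = l.length ∧ SmG R' l') (π l) := by
  classical
  induction N with
  | zero =>
    refine ⟨R, subset_rfl, fun l => if SmG R l then Finsupp.single l 1 else 0,
      fun l hl => if_pos hl, fun g l => ?_, fun l hl => ?_, fun l hl => ?_⟩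
    · by_cases h : SmG R l
      · simp only [if_pos (SmG_smul.2 h), if_pos h, tr_single]
      · simp only [if_neg fun h' => h (SmG_smul.1 h'), if_neg h, map_zero]
    · have : l = [] := List.length_eq_zero_iff.1 (Nat.le_zero.1 hl)
      subst this
      have h : SmG R ([] : List G) := by intro x hx; simp at hx
      simp only [if_pos h, bd_single, bdL, map_zero, smul_zero]
    · by_cases h : SmG R l
      · simp only [if_pos h]
        exact Sup.single _ ⟨rfl, h⟩
      · simp only [if_neg h]
        exact Sup.zero
  | succ N ih =>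
    obtain ⟨R₁, hR₁, π, hπ1, hπe, hπb, hπs⟩ := ih
    obtain ⟨R₂, hR₂, HF⟩ := hC N R₁
    have hze : ∀ (g : G) l, ext π (bdL k (l.map fun x => g • x)) = tr g (ext π (bdL k l)) := by
      intro g l
      rw [← tr_bdL, ext_tr, tr_ext]
      refine congrArg (fun u => ext u (bdL k l)) ?_
      funext l'
      exact hπe g l'
    have hzb : ∀ l : List G, l.length = N + 1 → bd (ext π (bdL k l)) = 0 := by
      intro l hl
      have h1 : ext (fun l' => bd (π l')) (bdL k l) = ext (fun l' => ext π (bdL k l')) (bdL k l) :=
        ext_congr (sup_bdL l) fun l' hl' => hπb l' (by have := hl'.2; omega)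
      rw [SupA.map_ext, h1, ← ext_bdL, bd_bdL, map_zero]
    have hzs : ∀ l : List G, l.length = N + 1 →
        Sup (fun l' => l'.length = N ∧ SmG R₁ l') (ext π (bdL k l)) := by
      intro l hl
      refine Sup.ext (sup_bdL l) fun l' hl' => ?_
      have h1 : l'.length = N := by have := hl'.2; omega
      have h2 := hπs l' (by omega)
      rwa [h1] at h2
    have hfill : ∀ c : Ch k G, ∃ f : Ch k G, (bd c = 0 →
        Sup (fun l' => l'.length = N ∧ SmG R₁ l') c →
        bd f = c ∧ Sup (fun l' => l'.length = N + 1 ∧ SmG R₂ l') f) := by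
      intro c
      by_cases h : bd c = 0 ∧ Sup (fun l' => l'.length = N ∧ SmG R₁ l') c
      · obtain ⟨f, hf⟩ := HF c h.1 h.2
        exact ⟨f, fun _ _ => hf⟩
      · exact ⟨0, fun h1 h2 => absurd ⟨h1, h2⟩ h⟩
    choose fl hfl using hfill
    let D : List G → Ch k G := fun l => if SmG R l then Finsupp.single l 1 else
      match l with
      | [] => π []
      | x :: l₁ => if l₁.length = N then
          tr x (fl (ext π (bdL k ((x :: l₁).map fun y => x⁻¹ • y)))) else π (x :: l₁)
    have hD1 : ∀ l, SmG R l → D l = Finsupp.single l 1 := fun l hl => if_pos hl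
    have hDN : ∀ l : List G, l.length ≤ N → D l = π l := by
      intro l hl
      by_cases h : SmG R l
      · rw [hD1 l h, hπ1 l h]
      · have e1 : D l = _ := if_neg h
        rw [e1]
        cases l with
        | nil => rfl
        | cons x l₁ =>
          have : l₁.length ≠ N := by simp at hl; omega
          exact if_neg this
    have hDN' : ∀ (x : G) (l₁ : List G), l₁.length = N → ¬ SmG R (x :: l₁) →
        D (x :: l₁) = tr x (fl (ext π (bdL k ((x :: l₁).map fun y => x⁻¹ • y)))) := by
      intro x l₁ h h'
      have e1 : D (x :: l₁) = _ := if_neg h'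
      rw [e1]
      exact if_pos h
    have hDN'' : ∀ l : List G, l.length ≠ N + 1 → D l = π l := by
      intro l hl
      by_cases h : SmG R l
      · rw [hD1 l h, hπ1 l h]
      · have e1 : D l = _ := if_neg h
        rw [e1]
        cases l with
        | nil => rfl
        | cons x l₁ =>
          have : l₁.length ≠ N := by simp at hl; omega
          exact if_neg this
    refine ⟨R₂, hR₁.trans hR₂, D, hD1, ?_, ?_, ?_⟩
    · intro g l
      by_cases h : SmG R l
      · rw [hD1 _ (SmG_smul.2 h), hD1 _ h, tr_single]
      · by_cases h' : l.length = N + 1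
        · obtain ⟨x, l₁, rfl⟩ : ∃ x l₁, l = x :: l₁ := by
            cases l with
            | nil => simp at h'
            | cons x l₁ => exact ⟨x, l₁, rfl⟩
          have hl₁ : l₁.length = N := by simpa using h'
          have h2 : ¬ SmG R ((x :: l₁).map fun x => g • x) := fun h'' => h (SmG_smul.1 h'')
          rw [List.map_cons] at h2 ⊢
          rw [hDN' _ _ (by rw [List.length_map]; exact hl₁) h2, hDN' _ _ hl₁ h, tr_tr]
          congr 4
          rw [← List.map_cons (f := fun x : G => g • x), map_map_smul]
          congr 1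
          funext y
          congr 1
          simp
        · rw [hDN'' _ (by rw [List.length_map]; exact h'), hDN'' _ h', hπe]
    · intro l hlN
      have hext : ext D (bdL k l) = ext π (bdL k l) :=
        ext_congr (sup_bdL l) fun l' hl' => hDN l' (by have := hl'.2; omega)
      rw [hext]
      by_cases hs : SmG R l
      · rw [hD1 l hs, bd_single, one_smul]
        have h1 : ext π (bdL k l) = ext (fun l' => Finsupp.single l' (1 : k)) (bdL k l) :=
          ext_congr (sup_bdL l) fun l' hl' => hπ1 l' (SmG_sub hl'.1 hs)
        rw [h1, SupA.ext_self]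
      by_cases h : l.length = N + 1
      · obtain ⟨x, l₁, rfl⟩ : ∃ x l₁, l = x :: l₁ := by
          cases l with
          | nil => simp at h
          | cons x l₁ => exact ⟨x, l₁, rfl⟩
        have hl₁ : l₁.length = N := by simpa using h
        rw [hDN' _ _ hl₁ hs, bd_tr]
        have h1 := (hfl (ext π (bdL k ((x :: l₁).map fun y => x⁻¹ • y)))
          (hzb _ (by simpa using hl₁)) (hzs _ (by simpa using hl₁))).1
        rw [h1, ← hze, map_map_smul, mul_inv_cancel]
        rw [map_one_smul]
      · rw [hDN'' l (by omega)]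
        exact hπb l (by omega)
    · intro l hlN
      by_cases hs : SmG R l
      · rw [hD1 l hs]
        exact Sup.single _ ⟨rfl, SmG_mono (hR₁.trans hR₂) hs⟩
      by_cases h : l.length = N + 1
      · obtain ⟨x, l₁, rfl⟩ : ∃ x l₁, l = x :: l₁ := by
          cases l with
          | nil => simp at h
          | cons x l₁ => exact ⟨x, l₁, rfl⟩
        have hl₁ : l₁.length = N := by simpa using h
        rw [hDN' _ _ hl₁ hs]
        have h1 := (hfl (ext π (bdL k ((x :: l₁).map fun y => x⁻¹ • y)))
          (hzb _ (by simpa using hl₁)) (hzs _ (by simpa using hl₁))).2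
        refine sup_tr h1 fun l' hl' => ⟨?_, SmG_smul.2 hl'.2⟩
        rw [List.length_map, hl'.1, List.length_cons, hl₁]
      · rw [hDN'' l h]
        exact Sup.mono (fun l' hl' => ⟨hl'.1, SmG_mono hR₂ hl'.2⟩) (hπs l (by omega))

end

end Vale.Agent.P260.H672
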