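import Vale.Agent.P260.H672.Pi
import Vale.Agent.P260.H672.Loc

/-!
# P260, block A1: equivariant chain maps from the lists of `G` to the fine lists of `X`
-/

set_option linter.all false

open Set (univ image mem_iUnion₂)

namespace Vale.Agent.P260.H672

open Vale.Agent.P239.M

section Htp

variable {k : Type*} [CommRing k] {G : Type*} [Group G]

theorem cone_tr (g x : G) (c : Ch k G) : cone (g • x) (tr g c) = tr g (cone x c) :=
  (pf_cone _ _ _).symm

theorem htp_equiv {ξ : List G → G} {Φ : List G → Ch k G}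
    (hξ : ∀ (g : G) l, l ≠ [] → ξ (l.map fun x => g • x) = g • ξ l)
    (hΦ : ∀ (g : G) l, Φ (l.map fun x => g • x) = tr g (Φ l)) (g : G) (l : List G) :
    htp ξ Φ (l.map fun x => g • x) = tr g (htp ξ Φ l) := by
  suffices H : ∀ n : ℕ, ∀ l : List G, l.length = n →
      htp ξ Φ (l.map fun x => g • x) = tr g (htp ξ Φ l) from H _ l rfl
  intro n
  induction n with
  | zero =>
    intro l hl
    obtain rfl := List.eq_nil_of_length_eq_zero hl
    rw [List.map_nil, htp_nil, map_zero]
  | succ n ih =>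
    intro l hl
    have hne : l ≠ [] := by rintro rfl; simp at hl
    have hne' : (l.map fun x => g • x) ≠ [] := by simpa using hne
    rw [htp_of_ne ξ Φ hne, htp_of_ne ξ Φ hne', hξ g l hne, hΦ, ← tr_bdL, ext_tr]
    have h1 : ext (fun l' => htp ξ Φ (l'.map fun x => g • x)) (bdL k l) =
        ext (fun l' => tr g (htp ξ Φ l')) (bdL k l) :=
      ext_congr (sup_bdL l) fun l' hl' => ih l' (by have := hl'.2; omega)
    rw [h1, ← tr_ext, ← tr_single, ← map_sub, ← map_sub, cone_tr]

/-- the head of a list -/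
def hdG : List G → G
  | [] => 1
  | x :: _ => x

theorem hdG_smul (g : G) (l : List G) (hl : l ≠ []) : hdG (l.map fun x => g • x) = g • hdG l := by
  cases l with
  | nil => exact absurd rfl hl
  | cons x l => rfl

/-- The homotopy between the identity and an equivariant chain map, evaluated. -/
theorem coc_htp {f : List G → k} {n : ℕ} (hf : ∀ l : List G, l.length = n + 2 → ext f (bdL k l) = 0)
    {Φ : List G → Ch k G} (h0 : Φ [] = Finsupp.single [] 1)
    (hΦ : ∀ l, l.length ≤ n + 1 → bd (Φ l) = ext Φ (bdL k l))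
    (hs : ∀ l, l.length ≤ n + 1 → Sup (fun l' => l'.length = l.length) (Φ l)) {l : List G}
    (hl : l.length = n + 1) :
    f l = ext (fun l' => ext f (htp hdG Φ l')) (bdL k l) + ext f (Φ l) := by
  have h1 := bd_htp hdG Φ (P := fun l => l.length ≤ n + 1)
    (fun l l' hs hl => (hs.length_le).trans hl) h0 hΦ l hl.le
  have h2 := sup_htp hdG Φ (fun _ => univ) (P := fun l => l.length ≤ n + 1)
    (fun l l' hs hl => (hs.length_le).trans hl) (fun _ _ _ => subset_rfl)
    (fun _ _ _ _ => Set.mem_univ _) (fun _ _ _ => Set.mem_univ _)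
    (fun l hl => Sup.mono (fun l' hl' => ⟨hl', fun _ _ => Set.mem_univ _⟩) (hs l hl)) l hl.le
  have h3 : ext f (bd (htp hdG Φ l)) = 0 := by
    rw [ext_bdL]
    have h4 : ext (fun l' => ext f (bdL k l')) (htp hdG Φ l) = ext (fun _ => (0 : k)) (htp hdG Φ l) :=
      ext_congr h2 fun l' hl' => hf l' (by rw [hl'.1, hl])
    rw [h4]
    simp [ext, Finsupp.linearCombination_apply]
  have h4 : ext f (bd (htp hdG Φ l) + ext (htp hdG Φ) (bdL k l)) = ext f (Finsupp.single l 1 - Φ l) :=
    congrArg _ h1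
  rw [map_add, h3, zero_add, map_sub, SupA.map_ext, Finsupp.linearCombination_single, one_smul] at h4
  rw [h4]
  abel

end Htp

section Q

variable {k : Type} [Field k] {G X N : Type} [Group G] [MetricSpace X] [MulAction G X]

/-- Equivariant chain maps from all the lists of `G` to fine lists of `X`. -/
theorem exists_Q (hcont : ∀ g : G, Continuous fun x : X => g • x) (hF : FillS k X)
    (hC : ∀ i, CFillS k G i) (R : Finset G) (N : ℕ) : ∃ C : Set X, IsCompact C ∧ ∀ ε > 0,
    ∃ Q : List G → Ch k X, Q [] = Finsupp.single [] 1 ∧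
      (∀ (g : G) l, Q (l.map fun x => g • x) = tr g (Q l)) ∧
      (∀ l, l.length ≤ N → bd (Q l) = ext Q (bdL k l)) ∧
      (∀ l, l.length ≤ N → Sup (fun l' => ∃ g : G, Sz g C ε l.length l') (Q l)) ∧
      ∀ x l, SmG R (x :: l) → l.length < N → Sup (Sz x C ε (l.length + 1)) (Q (x :: l)) := by
  classical
  obtain ⟨R', hR, π, hπ1, hπe, hπb, hπs⟩ := exists_pi hC R N
  obtain ⟨C, hCc, -, H⟩ := ext_fill (k := k) hcont hF (fun x : G => x) (fun g v => rfl) R' 1 0 N
    isCompact_empty
  refine ⟨C, hCc, fun ε hε => ?_⟩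
  obtain ⟨η, hη, -, H⟩ := H ε hε
  obtain ⟨Ψ, hΨ0, hΨe, hΨb, hΨs⟩ := H (SmG R') (fun l l' h hl => SmG_sub h hl)
    (fun g l hl => SmG_smul.2 hl) (fun l hl x hx y hy => hl x hx y hy) (fun _ => 0)
    (fun g l => (map_zero _).symm) (fun l _ => by simp [ext, Finsupp.linearCombination_apply])
    (fun x l _ _ => Sup.zero) rfl 1 (Or.inr rfl)
  have hQ0 : ext Ψ (π []) = Finsupp.single [] 1 := by
    rw [hπ1 [] (fun x hx => by simp at hx), Finsupp.linearCombination_single, one_smul, hΨ0]
  refine ⟨fun l => ext Ψ (π l), hQ0, fun g l => ?_, fun l hl => ?_, fun l hl => ?_, fun x l hl hlN => ?_⟩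
  · change ext Ψ (π (l.map fun x => g • x)) = tr g (ext Ψ (π l))
    rw [hπe, ext_tr, tr_ext]
    refine congrArg (fun u => ext u (π l)) ?_
    funext l'
    exact hΨe g l'
  · change bd (ext Ψ (π l)) = _
    have h1 : ext (fun l' => bd (Ψ l')) (π l) = ext (fun l' => ext Ψ (bdL k l')) (π l) := by
      refine ext_congr (hπs l hl) fun l' hl' => ?_
      have := hΨb l' hl'.2 (by rw [hl'.1]; exact hl)
      rwa [zero_add, one_smul] at this
    rw [SupA.map_ext, h1, ← ext_bdL, hπb l hl]
    exact SupA.map_ext (ext Ψ) π (bdL k l)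
  · change Sup _ (ext Ψ (π l))
    refine Sup.ext (hπs l hl) fun l' hl' => ?_
    cases l' with
    | nil =>
      rw [hΨ0]
      refine Sup.single _ ⟨1, Sz_one.2 ⟨by simpa using hl'.1, ?_, ?_⟩⟩
      · intro y hy; simp at hy
      · intro y hy; simp at hy
    | cons y l₁ =>
      have h1 : l₁.length + 1 = l.length := by simpa using hl'.1
      have h2 := hΨs y l₁ hl'.2 (by omega)
      exact Sup.mono (fun l'' hl'' => ⟨y, by rw [← h1]; exact hl''⟩) h2
  · change Sup _ (ext Ψ (π (x :: l)))
    rw [hπ1 _ hl, Finsupp.linearCombination_single, one_smul]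
    exact hΨs x l (SmG_mono hR hl) hlN

end Q

end Vale.Agent.P260.H672
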